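import Vale.Agent.P163.Model

/-!
The `O(n)` model on a graph with indexed bonds: rotation derivatives and the Ward identity.
-/

noncomputable section

namespace Vale.Agent.P163.Helicity

open MeasureTheory Metric
open scoped RealInnerProductSpace

variable {n : ℕ} {V ι : Type*} [Fintype V] [Fintype ι]

/-- A graph given by the endpoints of its bonds. -/
structure Graph (V ι : Type*) where
  /-- The first end. -/
  src : ι → V
  /-- The second end. -/
  tgt : ι → V

/-- A component of a spin. -/
def co (a : Fin n) (x : V) (σ : V → Spin n) : ℝ := (σ x : Euc n) a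

variable (G : Graph V ι)

/-- The energy `∑ σ_u · σ_v`. -/
def en (σ : V → Spin n) : ℝ := ∑ b, ⟪(σ (G.src b) : Euc n), (σ (G.tgt b) : Euc n)⟫

/-- The unnormalised expectation. -/
def av (β : ℝ) (F : (V → Spin n) → ℝ) : ℝ :=
  ∫ σ, F σ * Real.exp (β * en G σ) ∂freeLaw V n

/-- Increments along the bonds. -/
def dd (g : V → ℝ) (b : ι) : ℝ := g (G.src b) - g (G.tgt b)

/-- Means along the bonds. -/
def mid (g : V → ℝ) (b : ι) : ℝ := (g (G.src b) + g (G.tgt b)) / 2

/-- The current in a coordinate plane, weighted by `A`. -/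
def cur (i j : Fin n) (A : ι → ℝ) (σ : V → Spin n) : ℝ :=
  ∑ b, A b * (co i (G.src b) σ * co j (G.tgt b) σ - co j (G.src b) σ * co i (G.tgt b) σ)

/-- The planar energy, weighted by `A`. -/
def pen (i j : Fin n) (A : ι → ℝ) (σ : V → Spin n) : ℝ :=
  ∑ b, A b * (co i (G.src b) σ * co i (G.tgt b) σ + co j (G.src b) σ * co j (G.tgt b) σ)

/-- The symmetric product of two components, weighted by `A`. -/
def sym (i j : Fin n) (A : ι → ℝ) (σ : V → Spin n) : ℝ :=
  ∑ b, A b * (co i (G.src b) σ * co j (G.tgt b) σ + co j (G.src b) σ * co i (G.tgt b) σ)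

/-- The difference of two diagonal products, weighted by `A`. -/
def adiff (i j : Fin n) (A : ι → ℝ) (σ : V → Spin n) : ℝ :=
  ∑ b, A b * (co i (G.src b) σ * co i (G.tgt b) σ - co j (G.src b) σ * co j (G.tgt b) σ)

/-- A coordinate plane. -/
def pl {i j : Fin n} (h : i ≠ j) : Plane n where
  e := EuclideanSpace.single i 1
  f := EuclideanSpace.single j 1
  he := by simp [EuclideanSpace.inner_single_left]
  hf := by simp [EuclideanSpace.inner_single_left]
  hef := by simp [EuclideanSpace.inner_single_left, h]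

/-- Rotation of the spins in a coordinate plane. -/
def rot {i j : Fin n} (h : i ≠ j) (g : V → ℝ) (t : ℝ) (σ : V → Spin n) : V → Spin n :=
  rotF (pl h) (fun x => t * g x) σ

omit [Fintype V] [Fintype ι] in
lemma co_rot {i j : Fin n} (h : i ≠ j) (g : V → ℝ) (t : ℝ) (σ : V → Spin n) (a : Fin n) (x : V) :
    co a x (rot h g t σ) = co a x σ +
      (if a = i then (Real.cos (t * g x) - 1) * co i x σ - Real.sin (t * g x) * co j x σ else 0) +
      (if a = j then (Real.cos (t * g x) - 1) * co j x σ + Real.sin (t * g x) * co i x σ else 0) := by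
  simp only [co, rot, rotF_coe, Plane.rotFun, pl, EuclideanSpace.inner_single_left, map_one,
    one_mul, PiLp.add_apply, PiLp.smul_apply, PiLp.single_apply, smul_eq_mul]
  split_ifs <;> ring

omit [Fintype V] in
lemma rot_add {i j : Fin n} (h : i ≠ j) (g : V → ℝ) (s t : ℝ) (σ : V → Spin n) :
    rot h g s (rot h g t σ) = rot h g (s + t) σ := by
  funext x; apply Subtype.ext
  simp only [rot, rotF_coe, Plane.rot_rot]
  ring_nf

omit [Fintype V] in
lemma rot_zero {i j : Fin n} (h : i ≠ j) (g : V → ℝ) (σ : V → Spin n) : rot h g 0 σ = σ := by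
  funext x; apply Subtype.ext
  simp only [rot, rotF_coe, zero_mul, Plane.rot_zero]

/-- `F'` is the derivative of `F` under the rotation by `t g`. -/
structure HasRot {i j : Fin n} (h : i ≠ j) (g : V → ℝ) (F F' : (V → Spin n) → ℝ) : Prop where
  cont : Continuous F
  cont' : Continuous F'
  deriv : ∀ σ, HasDerivAt (fun t => F (rot h g t σ)) (F' σ) 0

omit [Fintype ι] in
lemma continuous_co (a : Fin n) (x : V) : Continuous (co (n := n) a x) :=
  (PiLp.continuous_apply 2 _ a).comp (continuous_spin x)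

variable {G}

lemma hasRot_co {i j : Fin n} (h : i ≠ j) (g : V → ℝ) (a : Fin n) (x : V) :
    HasRot h g (co a x) (fun σ => g x *
      ((if a = j then co i x σ else 0) - if a = i then co j x σ else 0)) := by
  refine ⟨continuous_co a x, ?_, fun σ => ?_⟩
  · have := continuous_co (n := n) i x
    have := continuous_co (n := n) j x
    split_ifs <;> fun_prop
  · simp only [co_rot]
    have h1 : HasDerivAt (fun t : ℝ => t * g x) (g x) 0 := by simpa using hasDerivAt_mul_const (g x)
    have hc : HasDerivAt (fun t : ℝ => Real.cos (t * g x) - 1) 0 0 := by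
      simpa using h1.cos.sub_const 1
    have hs : HasDerivAt (fun t : ℝ => Real.sin (t * g x)) (g x) 0 := by simpa using h1.sin
    by_cases ha : a = i
    · subst ha
      have := (((hc.mul_const (co a x σ)).sub (hs.mul_const (co j x σ))).const_add (co a x σ))
      simpa [if_neg h] using this
    · by_cases hb : a = j
      · subst hb
        have := ((hc.mul_const (co a x σ)).add (hs.mul_const (co i x σ))).const_add (co a x σ)
        simpa [if_neg ha] using this
      · simp only [if_neg ha, if_neg hb, add_zero, sub_zero, mul_zero]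
        exact hasDerivAt_const _ _

namespace HasRot

variable {i j : Fin n} {h : i ≠ j} {g : V → ℝ} {F F' K K' : (V → Spin n) → ℝ}

lemma const (c : ℝ) : HasRot h g (fun _ => c) (fun _ => 0) :=
  ⟨continuous_const, continuous_const, fun _ => hasDerivAt_const _ _⟩

lemma add (hF : HasRot h g F F') (hK : HasRot h g K K') :
    HasRot h g (fun σ => F σ + K σ) (fun σ => F' σ + K' σ) :=
  ⟨hF.cont.add hK.cont, hF.cont'.add hK.cont', fun σ => (hF.deriv σ).fun_add (hK.deriv σ)⟩

lemma sub (hF : HasRot h g F F') (hK : HasRot h g K K') :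
    HasRot h g (fun σ => F σ - K σ) (fun σ => F' σ - K' σ) :=
  ⟨hF.cont.sub hK.cont, hF.cont'.sub hK.cont', fun σ => (hF.deriv σ).fun_sub (hK.deriv σ)⟩

lemma const_mul (c : ℝ) (hF : HasRot h g F F') :
    HasRot h g (fun σ => c * F σ) (fun σ => c * F' σ) :=
  ⟨continuous_const.mul hF.cont, continuous_const.mul hF.cont', fun σ => (hF.deriv σ).const_mul c⟩

lemma mul (hF : HasRot h g F F') (hK : HasRot h g K K') :
    HasRot h g (fun σ => F σ * K σ) (fun σ => F' σ * K σ + F σ * K' σ) :=
  ⟨hF.cont.mul hK.cont, (hF.cont'.mul hK.cont).add (hF.cont.mul hK.cont'), fun σ => by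
    simpa [rot_zero] using (hF.deriv σ).fun_mul (hK.deriv σ)⟩

lemma sum {κ : Type*} (s : Finset κ) {f f' : κ → (V → Spin n) → ℝ}
    (hf : ∀ k ∈ s, HasRot h g (f k) (f' k)) :
    HasRot h g (fun σ => ∑ k ∈ s, f k σ) (fun σ => ∑ k ∈ s, f' k σ) :=
  ⟨continuous_finsetSum _ fun k hk => (hf k hk).cont,
    continuous_finsetSum _ fun k hk => (hf k hk).cont',
    fun σ => HasDerivAt.fun_sum fun k hk => (hf k hk).deriv σ⟩

lemma congr_deriv (hF : HasRot h g F F') (e : ∀ σ, F' σ = K' σ) : HasRot h g F K' :=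
  (funext e : F' = K') ▸ hF

lemma congr_fun (hF : HasRot h g F F') (e : ∀ σ, F σ = K σ) : HasRot h g K F' :=
  (funext e : F = K) ▸ hF

lemma unique (hF : HasRot h g F F') (hK : HasRot h g F K') (σ : V → Spin n) : F' σ = K' σ :=
  (hF.deriv σ).unique (hK.deriv σ)

lemma deriv_at (hF : HasRot h g F F') (σ : V → Spin n) (t : ℝ) :
    HasDerivAt (fun s => F (rot h g s σ)) (F' (rot h g t σ)) t := by
  have h0 : HasDerivAt (fun s : ℝ => s - t) 1 t := (hasDerivAt_id t).sub_const t
  have := HasDerivAt.comp t (h := fun s : ℝ => s - t)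
    (show HasDerivAt (fun u => F (rot h g u (rot h g t σ))) (F' (rot h g t σ)) (t - t) by
      rw [sub_self]; exact hF.deriv _) h0
  simpa [Function.comp_def, rot_add] using this

end HasRot

lemma inner_eq_sum (v w : Euc n) : ⟪v, w⟫ = ∑ a, v a * w a := by
  simp [PiLp.inner_apply, mul_comm]

lemma hasRot_en {i j : Fin n} (h : i ≠ j) (g : V → ℝ) :
    HasRot h g (en G) (cur G i j (dd G g)) := by
  have e : en (n := n) G = fun σ => ∑ b, ∑ a, co a (G.src b) σ * co a (G.tgt b) σ := by
    funext σ; simp only [en, inner_eq_sum, co]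
  rw [e]
  refine (HasRot.sum _ fun b _ => HasRot.sum _ fun a _ =>
    (hasRot_co h g a (G.src b)).mul (hasRot_co h g a (G.tgt b))).congr_deriv fun σ => ?_
  refine Finset.sum_congr rfl fun b _ => ?_
  simp only [mul_sub, sub_mul, mul_ite, ite_mul, mul_zero, zero_mul, Finset.sum_add_distrib,
    Finset.sum_sub_distrib, Finset.sum_ite_eq', Finset.mem_univ, if_true, dd]
  ring

@[fun_prop]
lemma continuous_en : Continuous (en (n := n) G) := by unfold en; fun_prop

lemma integrable_av [NeZero n] {β : ℝ} {F : (V → Spin n) → ℝ} (hF : Continuous F) :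
    Integrable (fun σ => F σ * Real.exp (β * en G σ)) (freeLaw V n) := integ (by fun_prop)

/-- The Ward identity. -/
theorem ward [NeZero n] (β : ℝ) {i j : Fin n} {h : i ≠ j} {g : V → ℝ}
    {F F' : (V → Spin n) → ℝ} (hF : HasRot h g F F') :
    av G β F' + β * av G β (fun σ => F σ * cur G i j (dd G g) σ) = 0 := by
  set C := cur (n := n) G i j (dd G g) with hC
  have hCc : Continuous C := (hasRot_en (G := G) h g).cont'
  set K : (V → Spin n) → ℝ := fun σ => F σ * Real.exp (β * en G σ) with hK
  set K' : (V → Spin n) → ℝ := fun σ => (F' σ + β * (F σ * C σ)) * Real.exp (β * en G σ) with hK'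
  have hKc : Continuous K := by have := hF.cont; fun_prop
  have hKc' : Continuous K' := by have := hF.cont; have := hF.cont'; fun_prop
  have hrc : ∀ t, Continuous (rot (V := V) h g t) := fun t => continuous_rotF _ _
  obtain ⟨M, hM⟩ := isCompact_univ.exists_bound_of_continuousOn hKc'.continuousOn
  have hd := (hasDerivAt_integral_of_dominated_loc_of_deriv_le (μ := freeLaw V n)
    (F := fun t σ => K (rot h g t σ)) (F' := fun t σ => K' (rot h g t σ)) (x₀ := (0 : ℝ))
    (bound := fun _ => M) (s := Set.univ) Filter.univ_mem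
    (Filter.Eventually.of_forall fun t => (hKc.comp (hrc t)).aestronglyMeasurable)
    (integ (hKc.comp (hrc 0))) (hKc'.comp (hrc 0)).aestronglyMeasurable
    (Filter.Eventually.of_forall fun σ t _ => hM _ (Set.mem_univ _))
    (integrable_const M)
    (Filter.Eventually.of_forall fun σ t _ => ?_)).2
  · have hconst : ∀ t, ∫ σ, K (rot h g t σ) ∂freeLaw V n = ∫ σ, K σ ∂freeLaw V n := fun t =>
      integral_rotF _ _ hKc
    simp only [hconst, rot_zero] at hd
    have h0 : ∫ σ, K' σ ∂freeLaw V n = 0 := (hd.unique (hasDerivAt_const _ _))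
    have hFC : Continuous fun σ => F σ * C σ := hF.cont.mul hCc
    unfold av
    rw [← integral_const_mul, ← integral_add (integrable_av hF.cont') (Integrable.const_mul
      (integrable_av hFC) β), ← h0]
    exact integral_congr_ae (Filter.Eventually.of_forall fun σ => by simp only [hK']; ring)
  · have h1 := hF.deriv_at σ t
    have h2 := ((hasRot_en (G := G) h g).deriv_at σ t).const_mul β
    refine (h1.mul h2.exp).congr_deriv ?_
    simp only [hK', hC]; ring

/-- Rotatable observables. -/
def Rotd (F : (V → Spin n) → ℝ) : Prop :=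
  ∀ (i j : Fin n) (h : i ≠ j) (g : V → ℝ), ∃ F', HasRot h g F F'

namespace Rotd

variable {F K : (V → Spin n) → ℝ}

lemma co (a : Fin n) (x : V) : Rotd (Helicity.co (n := n) a x) :=
  fun _ _ h g => ⟨_, hasRot_co h g a x⟩

lemma add (hF : Rotd F) (hK : Rotd K) : Rotd fun σ => F σ + K σ :=
  fun i j h g => ⟨_, (hF i j h g).choose_spec.add (hK i j h g).choose_spec⟩

lemma sub (hF : Rotd F) (hK : Rotd K) : Rotd fun σ => F σ - K σ :=
  fun i j h g => ⟨_, (hF i j h g).choose_spec.sub (hK i j h g).choose_spec⟩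

lemma mul (hF : Rotd F) (hK : Rotd K) : Rotd fun σ => F σ * K σ :=
  fun i j h g => ⟨_, (hF i j h g).choose_spec.mul (hK i j h g).choose_spec⟩

lemma const_mul (c : ℝ) (hF : Rotd F) : Rotd fun σ => c * F σ :=
  fun i j h g => ⟨_, (hF i j h g).choose_spec.const_mul c⟩

lemma sum {κ : Type*} (s : Finset κ) {f : κ → (V → Spin n) → ℝ} (hf : ∀ k ∈ s, Rotd (f k)) :
    Rotd fun σ => ∑ k ∈ s, f k σ := by
  classical
  exact fun i j h g => ⟨_, HasRot.sum s (f' := fun k => if hk : k ∈ s then
    (hf k hk i j h g).choose else fun _ => 0) fun k hk => by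
      simp only [dif_pos hk]; exact (hf k hk i j h g).choose_spec⟩

end Rotd

/-- The observable depends only on the spins in `S`. -/
def Loc (S : Set V) (F : (V → Spin n) → ℝ) : Prop :=
  ∀ σ τ, (∀ x ∈ S, σ x = τ x) → F σ = F τ

lemma Loc.deriv_eq {S : Set V} {F F₁ F₂ : (V → Spin n) → ℝ} (hS : Loc S F) {i j : Fin n}
    {h : i ≠ j} {g₁ g₂ : V → ℝ} (h₁ : HasRot h g₁ F F₁) (h₂ : HasRot h g₂ F F₂)
    (e : ∀ x ∈ S, g₁ x = g₂ x) (σ : V → Spin n) : F₁ σ = F₂ σ := by
  refine (h₁.deriv σ).unique ?_
  refine (h₂.deriv σ).congr_of_eventuallyEq (Filter.Eventually.of_forall fun t => hS _ _ fun x hx => ?_)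
  apply Subtype.ext
  simp only [rot, rotF_coe, e x hx]

/-- A current whose potential is constant where `F` lives is orthogonal to `F`. -/
lemma av_mul_cur_eq_zero [NeZero n] {β : ℝ} (hβ : β ≠ 0) {S : Set V} {F : (V → Spin n) → ℝ}
    (hF : Rotd F) (hS : Loc S F) {i j : Fin n} (h : i ≠ j) {k : V → ℝ} {c : ℝ}
    (hk : ∀ x ∈ S, k x = c) : av G β (fun σ => F σ * cur G i j (dd G k) σ) = 0 := by
  obtain ⟨F₁, h₁⟩ := hF i j h k
  obtain ⟨F₂, h₂⟩ := hF i j h fun _ => c
  have e : F₁ = F₂ := funext (hS.deriv_eq h₁ h₂ hk)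
  have w₁ := ward (G := G) β h₁
  have w₂ := ward (G := G) β h₂
  have hz : (fun σ => F σ * cur G i j (dd G fun _ => c) σ) = fun _ => (0 : ℝ) := by
    funext σ; simp [cur, dd]
  rw [hz, ← e] at w₂
  have h0 : av G β (fun _ : V → Spin n => (0 : ℝ)) = 0 := by simp [av]
  rw [h0, mul_zero, add_zero] at w₂
  rw [w₂, zero_add] at w₁
  exact (mul_eq_zero.1 w₁).resolve_left hβ

lemma av_add [NeZero n] {β : ℝ} {F K : (V → Spin n) → ℝ} (hF : Continuous F) (hK : Continuous K) :
    av G β (fun σ => F σ + K σ) = av G β F + av G β K := by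
  simp only [av, add_mul]
  exact integral_add (integrable_av hF) (integrable_av hK)

lemma av_sub [NeZero n] {β : ℝ} {F K : (V → Spin n) → ℝ} (hF : Continuous F) (hK : Continuous K) :
    av G β (fun σ => F σ - K σ) = av G β F - av G β K := by
  simp only [av, sub_mul]
  exact integral_sub (integrable_av hF) (integrable_av hK)

lemma av_const_mul (β c : ℝ) (F : (V → Spin n) → ℝ) :
    av G β (fun σ => c * F σ) = c * av G β F := by
  simp only [av, mul_assoc, integral_const_mul]

lemma av_sum [NeZero n] {κ : Type*} (s : Finset κ) {β : ℝ} {f : κ → (V → Spin n) → ℝ}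
    (hf : ∀ k ∈ s, Continuous (f k)) :
    av G β (fun σ => ∑ k ∈ s, f k σ) = ∑ k ∈ s, av G β (f k) := by
  simp only [av, Finset.sum_mul]
  exact integral_finsetSum _ fun k hk => integrable_av (hf k hk)

lemma av_mono [NeZero n] {β : ℝ} {F K : (V → Spin n) → ℝ} (hF : Continuous F) (hK : Continuous K)
    (h : ∀ σ, F σ ≤ K σ) : av G β F ≤ av G β K :=
  integral_mono (integrable_av hF) (integrable_av hK) fun σ =>
    mul_le_mul_of_nonneg_right (h σ) (Real.exp_pos _).le

lemma av_nonneg {β : ℝ} {F : (V → Spin n) → ℝ} (h : ∀ σ, 0 ≤ F σ) : 0 ≤ av G β F :=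
  integral_nonneg fun σ => mul_nonneg (h σ) (Real.exp_pos _).le

/-- Invariance under a symmetry of the graph. -/
theorem av_comp [NeZero n] (e : V ≃ V) (η : ι ≃ ι) (hs : ∀ b, G.src (η b) = e (G.src b))
    (ht : ∀ b, G.tgt (η b) = e (G.tgt b)) (β : ℝ) {F : (V → Spin n) → ℝ} (hF : Continuous F) :
    av G β (fun σ => F fun x => σ (e x)) = av G β F := by
  have hmap : (freeLaw V n).map (fun σ : V → Spin n => fun x => σ (e x)) = freeLaw V n := by
    have h := (measurePreserving_piCongrLeft (fun _ : V => sphereUnif n) e.symm).map_eq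
    have he : (fun σ : V → Spin n => fun x => σ (e x)) =
        MeasurableEquiv.piCongrLeft (fun _ : V => Spin n) e.symm := by
      funext σ x
      simp [MeasurableEquiv.coe_piCongrLeft, Equiv.piCongrLeft_apply_eq_cast]
    rw [he]; exact h
  have hen : ∀ σ : V → Spin n, en G (fun x => σ (e x)) = en G σ := fun σ => by
    simp only [en, ← hs, ← ht]
    exact η.sum_comp fun b => ⟪(σ (G.src b) : Euc n), (σ (G.tgt b) : Euc n)⟫
  have hc : Continuous fun σ : V → Spin n => F σ * Real.exp (β * en G σ) := by fun_prop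
  unfold av
  conv_rhs => rw [← hmap]
  rw [integral_map (measurable_pi_lambda _ fun x => measurable_pi_apply (e x)).aemeasurable
    hc.aestronglyMeasurable]
  exact integral_congr_ae (Filter.Eventually.of_forall fun σ => by simp only [hen])

end Vale.Agent.P163.Helicity
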