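import Vale.Agent.P163.Helicity.Algebra

/-!
The bound on the derivative of a packet against a current, from the diamagnetic inequality.
-/

noncomputable section

namespace Vale.Agent.P163.Helicity

open MeasureTheory

variable {n : ℕ} {V ι : Type*} [Fintype V] [Fintype ι] {G : Graph V ι}

omit [Fintype V] [Fintype ι] in
lemma co_sq_add_le {a c : Fin n} (h : a ≠ c) (x : V) (σ : V → Spin n) :
    co a x σ ^ 2 + co c x σ ^ 2 ≤ 1 := by
  have h1 : ‖(σ x : Euc n)‖ = 1 := by simp
  have h2 := EuclideanSpace.norm_sq_eq (σ x : Euc n)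
  rw [h1] at h2
  simp only [one_pow, Real.norm_eq_abs, sq_abs] at h2
  rw [h2, co, co, ← Finset.sum_pair (f := fun a => ((σ x : Euc n) a) ^ 2) h]
  exact Finset.sum_le_sum_of_subset_of_nonneg (Finset.subset_univ _) fun _ _ _ => sq_nonneg _

omit [Fintype V] in
lemma abs_pen_le {a c : Fin n} (h : a ≠ c) (A : ι → ℝ) (σ : V → Spin n) :
    |pen G a c A σ| ≤ ∑ b, |A b| := by
  refine (Finset.abs_sum_le_sum_abs _ _).trans (Finset.sum_le_sum fun b _ => ?_)
  rw [abs_mul]
  refine mul_le_of_le_one_right (abs_nonneg _) (abs_le.2 ?_)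
  have h1 := co_sq_add_le h (G.src b) σ
  have h2 := co_sq_add_le h (G.tgt b) σ
  constructor <;>
    nlinarith [sq_nonneg (co a (G.src b) σ + co a (G.tgt b) σ),
      sq_nonneg (co c (G.src b) σ + co c (G.tgt b) σ),
      sq_nonneg (co a (G.src b) σ - co a (G.tgt b) σ),
      sq_nonneg (co c (G.src b) σ - co c (G.tgt b) σ)]

omit [Fintype V] in
lemma abs_sym_le {a c : Fin n} (h : a ≠ c) (A : ι → ℝ) (σ : V → Spin n) :
    |sym G a c A σ| ≤ ∑ b, |A b| := by
  refine (Finset.abs_sum_le_sum_abs _ _).trans (Finset.sum_le_sum fun b _ => ?_)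
  rw [abs_mul]
  refine mul_le_of_le_one_right (abs_nonneg _) (abs_le.2 ?_)
  have h1 := co_sq_add_le h (G.src b) σ
  have h2 := co_sq_add_le h (G.tgt b) σ
  constructor <;>
    nlinarith [sq_nonneg (co a (G.src b) σ + co c (G.tgt b) σ),
      sq_nonneg (co c (G.src b) σ + co a (G.tgt b) σ),
      sq_nonneg (co a (G.src b) σ - co c (G.tgt b) σ),
      sq_nonneg (co c (G.src b) σ - co a (G.tgt b) σ)]

lemma nrm_nonneg (A : ι → ℝ) : 0 ≤ nrm A := Real.sqrt_nonneg _

lemma nrm_sq (A : ι → ℝ) : nrm A ^ 2 = ∑ b, A b ^ 2 :=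
  Real.sq_sqrt (Finset.sum_nonneg fun _ _ => sq_nonneg _)

lemma sum_abs_mul_le (a b : ι → ℝ) : ∑ x, |a x * b x| ≤ nrm a * nrm b := by
  have := Real.sum_mul_le_sqrt_mul_sqrt Finset.univ (fun x => |a x|) fun x => |b x|
  simpa only [abs_mul, sq_abs, nrm] using this

lemma nrm_mul_le {M : ℝ} (hM : 0 ≤ M) (c m : ι → ℝ) (hm : ∀ b, |m b| ≤ M) :
    nrm (fun b => c b * m b) ≤ M * nrm c := by
  rw [nrm, nrm, ← Real.sqrt_sq hM, ← Real.sqrt_mul (sq_nonneg M), Finset.mul_sum]
  refine Real.sqrt_le_sqrt (Finset.sum_le_sum fun b _ => ?_)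
  rw [mul_pow, mul_comm]
  exact mul_le_mul_of_nonneg_right (sq_le_sq.2 ((hm b).trans (le_abs_self M))) (sq_nonneg _)

variable [NeZero n] {β : ℝ}

omit [NeZero n] in
lemma part_nonneg_of : 0 ≤ part (n := n) G β := av_nonneg fun _ => zero_le_one

/-- Cauchy-Schwarz for the expectation. -/
lemma av_abs_mul_le {X Y : (V → Spin n) → ℝ} (hX : Continuous X) (hY : Continuous Y) {a b K : ℝ}
    (ha : 0 ≤ a) (hb : 0 ≤ b) (hK : 0 ≤ K) (h1 : av G β (fun σ => X σ ^ 2) ≤ a ^ 2 * K)
    (h2 : av G β (fun σ => Y σ ^ 2) ≤ b ^ 2 * K) :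
    av G β (fun σ => |X σ * Y σ|) ≤ a * b * K := by
  have key : ∀ ε : ℝ, 0 < ε → av G β (fun σ => |X σ * Y σ|) ≤ (a + ε) * (b + ε) * K := by
    intro ε hε
    set p := a + ε with hp
    set q := b + ε with hq
    have hp0 : 0 < p := by linarith
    have hq0 : 0 < q := by linarith
    have hpt : ∀ σ, |X σ * Y σ| ≤ q / (2 * p) * X σ ^ 2 + p / (2 * q) * Y σ ^ 2 := by
      intro σ
      rw [abs_mul, ← sq_abs (X σ), ← sq_abs (Y σ)]
      have e : q / (2 * p) * |X σ| ^ 2 + p / (2 * q) * |Y σ| ^ 2 - |X σ| * |Y σ| =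
          (q * |X σ| - p * |Y σ|) ^ 2 / (2 * p * q) := by field_simp; ring
      have : 0 ≤ (q * |X σ| - p * |Y σ|) ^ 2 / (2 * p * q) := by positivity
      linarith
    have c1 : Continuous fun σ => q / (2 * p) * X σ ^ 2 := continuous_const.mul (hX.pow 2)
    have c2 : Continuous fun σ => p / (2 * q) * Y σ ^ 2 := continuous_const.mul (hY.pow 2)
    refine (av_mono (hX.mul hY).abs (c1.fun_add c2) hpt).trans ?_
    rw [av_add c1 c2, av_const_mul, av_const_mul]
    calc q / (2 * p) * av G β (fun σ => X σ ^ 2) + p / (2 * q) * av G β (fun σ => Y σ ^ 2)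
        ≤ q / (2 * p) * (p ^ 2 * K) + p / (2 * q) * (q ^ 2 * K) := by
          gcongr
          · exact h1.trans (by gcongr; linarith)
          · exact h2.trans (by gcongr; linarith)
      _ = p * q * K := by field_simp; ring
  have hlim : Filter.Tendsto (fun ε : ℝ => (a + ε) * (b + ε) * K) (nhdsWithin 0 (Set.Ioi 0))
      (nhds (a * b * K)) := by
    refine tendsto_nhdsWithin_of_tendsto_nhds ?_
    have : Continuous fun ε : ℝ => (a + ε) * (b + ε) * K := by fun_prop
    simpa using this.tendsto 0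
  exact ge_of_tendsto hlim (eventually_mem_nhdsWithin.mono fun ε hε => key ε hε)

lemma abs_av_le {F : (V → Spin n) → ℝ} (hF : Continuous F) :
    |av G β F| ≤ av G β (fun σ => |F σ|) := by
  refine abs_le.2 ⟨?_, av_mono hF hF.abs fun σ => le_abs_self _⟩
  have hn : Continuous fun σ => -F σ := hF.neg
  have := av_mono (G := G) (β := β) hn hF.abs fun σ => neg_le_abs _
  rw [av_neg] at this
  linarith

variable {i j k : Fin n}

lemma av_cur_sq (hβ : 0 < β) {a c : Fin n} (h : a ≠ c)
    (hform : ∀ A, 0 ≤ form G β a c A A) (A : ι → ℝ) :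
    av G β (fun σ => cur G a c A σ ^ 2) ≤ (nrm A / Real.sqrt β) ^ 2 * part G n β := by
  have h1 := hform A
  rw [form] at h1
  have h2 : av G β (pen G a c fun b => A b * A b) ≤ nrm A ^ 2 * part G n β := by
    rw [part, ← av_const_mul]
    refine av_mono (continuous_pen a c _) (continuous_const.mul continuous_const) fun σ => ?_
    rw [mul_one, nrm_sq]
    exact ((le_abs_self _).trans (abs_pen_le h _ σ)).trans
      (le_of_eq (Finset.sum_congr rfl fun b _ => by rw [abs_mul_self, pow_two]))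
  simp only [← pow_two] at h1 ⊢
  rw [div_pow, Real.sq_sqrt hβ.le, div_mul_eq_mul_div, le_div_iff₀ hβ]
  have h3 : 0 ≤ β * (av G β (pen G a c fun b => A b * A b) -
      β * av G β (fun σ => cur G a c A σ ^ 2)) := by
    simp only [← pow_two]; linarith
  nlinarith [nonneg_of_mul_nonneg_right h3 hβ]

lemma av_cur_fourth (hβ : 0 < β) {a c : Fin n} (h : a ≠ c)
    (hform : ∀ A, 0 ≤ form G β a c A A) (g : V → ℝ) :
    av G β (fun σ => (cur G a c (dd G g) σ ^ 2) ^ 2) ≤
      (Real.sqrt 3 * nrm (dd G g) ^ 2 / β) ^ 2 * part G n β := by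
  set J := cur (n := n) G a c (dd G g) with hJ
  set P := pen (n := n) G a c fun b => dd G g b * dd G g b with hP
  have hR := hasRot_cur_same (G := G) (n := n) h g (dd G g)
  have w := ward (G := G) β ((hR.mul hR).mul hR)
  have hJc : Continuous J := continuous_cur a c _
  have hPc : Continuous P := continuous_pen a c _
  have e1 : (fun σ => (-P σ * J σ + J σ * -P σ) * J σ + J σ * J σ * -P σ) =
      fun σ => (-3) * (P σ * J σ ^ 2) := by funext σ; ring
  have e2 : (fun σ => J σ * J σ * J σ * J σ) = fun σ => (J σ ^ 2) ^ 2 := by funext σ; ring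
  simp only [← hJ, ← hP] at w
  rw [e1, e2, av_const_mul] at w
  have h2 : av G β (fun σ => P σ * J σ ^ 2) ≤
      nrm (dd G g) ^ 2 * ((nrm (dd G g) / Real.sqrt β) ^ 2 * part G n β) := by
    refine le_trans ?_ (mul_le_mul_of_nonneg_left (av_cur_sq hβ h hform (dd G g)) (sq_nonneg _))
    rw [← av_const_mul]
    refine av_mono (hPc.mul (hJc.pow 2)) (continuous_const.mul (hJc.pow 2)) fun σ => ?_
    refine mul_le_mul_of_nonneg_right ?_ (sq_nonneg _)
    rw [nrm_sq]
    exact ((le_abs_self _).trans (abs_pen_le h _ σ)).trans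
      (le_of_eq (Finset.sum_congr rfl fun b _ => by rw [abs_mul_self, pow_two]))
  rw [div_pow, Real.sq_sqrt hβ.le] at h2
  rw [div_pow, mul_pow, Real.sq_sqrt (show (0 : ℝ) ≤ 3 by norm_num), div_mul_eq_mul_div,
    le_div_iff₀ (pow_pos hβ 2)]
  have h3 := mul_le_mul_of_nonneg_left h2 (show 0 ≤ 3 * β by linarith)
  field_simp at h3
  nlinarith [h3]

/-- One half of the packet derivative against a current. -/
lemma half_bound (hij : i ≠ j) (hik : i ≠ k) (hjk : j ≠ k) (hβ : 0 < β)
    (hform : ∀ a c : Fin n, a ≠ c → ∀ A, 0 ≤ form G β a c A A) {g : V → ℝ} {M : ℝ} (hM : 0 ≤ M)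
    (hg : ∀ x, |g x| ≤ M) (ga h : V → ℝ) (c : ι → ℝ) :
    av G β (fun σ => |packHalf G i j k g (dd G ga) c σ * cur G j k (dd G h) σ|) ≤
      (3 / (2 * β) * nrm (dd G g) + Real.sqrt 3 / (β * Real.sqrt β) * M) * nrm (dd G ga) * nrm c *
        nrm (dd G h) * part G n β := by
  set a := dd G ga
  set Jh := cur (n := n) G j k (dd G h)
  set X := cur (n := n) G i k a
  set Jc := cur (n := n) G j k c
  set Y := cur (n := n) G i j fun b => c b * mid G g b
  set N := nrm (dd G g)
  set Z := part G n β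
  have hZ : 0 ≤ Z := part_nonneg_of
  have hsb : 0 < Real.sqrt β := Real.sqrt_pos.2 hβ
  have hsb2 : Real.sqrt β * Real.sqrt β = β := Real.mul_self_sqrt hβ.le
  have hn : ∀ A : ι → ℝ, 0 ≤ nrm A / Real.sqrt β := fun A => div_nonneg (nrm_nonneg A) hsb.le
  have hXc : Continuous X := continuous_cur _ _ _
  have hJhc : Continuous Jh := continuous_cur _ _ _
  have hJcc : Continuous Jc := continuous_cur _ _ _
  have hYc : Continuous Y := continuous_cur _ _ _
  have b1 : av G β (fun σ => |Jc σ * Jh σ|) ≤ nrm c * nrm (dd G h) / β * Z := by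
    refine (av_abs_mul_le hJcc hJhc (hn c) (hn (dd G h)) hZ (av_cur_sq hβ hjk (hform j k hjk) _)
      (av_cur_sq hβ hjk (hform j k hjk) _)).trans (le_of_eq ?_)
    rw [div_mul_div_comm, hsb2]
  have b2 : av G β (fun σ => |X σ * Jh σ|) ≤ nrm a * nrm (dd G h) / β * Z := by
    refine (av_abs_mul_le hXc hJhc (hn a) (hn (dd G h)) hZ (av_cur_sq hβ hik (hform i k hik) _)
      (av_cur_sq hβ hjk (hform j k hjk) _)).trans (le_of_eq ?_)
    rw [div_mul_div_comm, hsb2]
  have b3 : av G β (fun σ => |Y σ * (X σ * Jh σ)|) ≤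
      M * nrm c / Real.sqrt β * (Real.sqrt 3 * (nrm a * nrm (dd G h)) / β) * Z := by
    have hq : av G β (fun σ => |X σ ^ 2 * Jh σ ^ 2|) ≤
        (Real.sqrt 3 * (nrm a * nrm (dd G h)) / β) ^ 2 * Z := by
      refine (av_abs_mul_le (a := Real.sqrt 3 * nrm a ^ 2 / β) (b := Real.sqrt 3 * nrm (dd G h) ^ 2 / β)
        (hXc.pow 2) (hJhc.pow 2) (by positivity) (by positivity) hZ
        (av_cur_fourth hβ hik (hform i k hik) ga) (av_cur_fourth hβ hjk (hform j k hjk) h)).trans
        (le_of_eq ?_)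
      ring
    have hq' : av G β (fun σ => (X σ * Jh σ) ^ 2) ≤
        (Real.sqrt 3 * (nrm a * nrm (dd G h)) / β) ^ 2 * Z := by
      refine le_trans (le_of_eq ?_) hq
      congr 1; funext σ
      rw [mul_pow, abs_of_nonneg (by positivity)]
    refine av_abs_mul_le hYc (hXc.mul hJhc) (by positivity [nrm_nonneg c]) ?_ hZ ?_ hq'
    · exact div_nonneg (mul_nonneg (Real.sqrt_nonneg _) (mul_nonneg (nrm_nonneg _) (nrm_nonneg _))) hβ.le
    · refine (av_cur_sq hβ hij (hform i j hij) _).trans ?_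
      gcongr
      · exact hn _
      · exact nrm_mul_le hM c _ fun b => by
          rw [mid, abs_div, abs_two, div_le_iff₀ two_pos]
          linarith [abs_add_le (g (G.src b)) (g (G.tgt b)), hg (G.src b), hg (G.tgt b)]
  have hP : ∀ σ : V → Spin n, |pen G i k (fun b => a b * dd G g b) σ| ≤ nrm a * N := fun σ =>
    (abs_pen_le hik _ σ).trans (sum_abs_mul_le _ _)
  have hS : ∀ σ : V → Spin n, |sym G i j (fun b => c b * dd G g b) σ| ≤ nrm c * N := fun σ =>
    (abs_sym_le hij _ σ).trans (sum_abs_mul_le _ _)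
  have hpt : ∀ σ, |packHalf G i j k g a c σ * Jh σ| ≤
      nrm a * N * |Jc σ * Jh σ| + |Y σ * (X σ * Jh σ)| + nrm c * N / 2 * |X σ * Jh σ| := by
    intro σ
    rw [show packHalf G i j k g a c σ * Jh σ = -pen G i k (fun b => a b * dd G g b) σ * (Jc σ * Jh σ) +
        -(Y σ * (X σ * Jh σ)) + -(sym G i j (fun b => c b * dd G g b) σ / 2 * (X σ * Jh σ)) by
      simp only [packHalf, X, Jc, Y]; ring]
    refine (abs_add_le _ _).trans (add_le_add ((abs_add_le _ _).trans (add_le_add ?_ ?_)) ?_)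
    · rw [abs_mul, abs_neg]; exact mul_le_mul_of_nonneg_right (hP σ) (abs_nonneg _)
    · rw [abs_neg]
    · rw [abs_neg, abs_mul, abs_div, abs_two]
      exact mul_le_mul_of_nonneg_right (by linarith [hS σ]) (abs_nonneg _)
  have hc0 : Continuous fun σ : V → Spin n => packHalf G i j k g a c σ := by
    have := continuous_pen (G := G) (n := n) i k fun b => a b * dd G g b
    have := continuous_sym (G := G) (n := n) i j fun b => c b * dd G g b
    have := continuous_cur (G := G) (n := n) j k c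
    have := continuous_cur (G := G) (n := n) i k a
    have := continuous_cur (G := G) (n := n) i j fun b => c b * mid G g b
    unfold packHalf; fun_prop
  have c1 : Continuous fun σ => nrm a * N * |Jc σ * Jh σ| := continuous_const.mul (hJcc.mul hJhc).abs
  have c2 : Continuous fun σ => |Y σ * (X σ * Jh σ)| := (hYc.mul (hXc.mul hJhc)).abs
  have c3 : Continuous fun σ => nrm c * N / 2 * |X σ * Jh σ| := continuous_const.mul (hXc.mul hJhc).abs
  refine (av_mono (hc0.mul hJhc).abs ((c1.fun_add c2).fun_add c3) hpt).trans ?_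
  rw [av_add (c1.fun_add c2) c3, av_add c1 c2, av_const_mul, av_const_mul]
  have := nrm_nonneg a
  have := nrm_nonneg c
  have : 0 ≤ N := nrm_nonneg _
  calc nrm a * N * av G β (fun σ => |Jc σ * Jh σ|) + av G β (fun σ => |Y σ * (X σ * Jh σ)|) +
        nrm c * N / 2 * av G β (fun σ => |X σ * Jh σ|)
      ≤ nrm a * N * (nrm c * nrm (dd G h) / β * Z) +
          M * nrm c / Real.sqrt β * (Real.sqrt 3 * (nrm a * nrm (dd G h)) / β) * Z +
          nrm c * N / 2 * (nrm a * nrm (dd G h) / β * Z) := by gcongr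
    _ = _ := by field_simp; ring

theorem bound_stmt (hD : DiaStmt) : BoundStmt := by
  intro n V ι _ _ _ G β hβ i j k hij hik hjk g h g' h' M hg
  rcases isEmpty_or_nonempty V with hV | hV
  · have : IsEmpty ι := G.src.isEmpty
    simp [av, cur, nrm]
  have hM : 0 ≤ M := (abs_nonneg _).trans (hg (Classical.arbitrary V))
  have hform : ∀ a c : Fin n, a ≠ c → ∀ A, 0 ≤ form G β a c A A :=
    fun a c hac A => (hD n V ι G β hβ.le a c hac A 0).1
  have b1 := half_bound hij hik hjk hβ hform hM hg g' h (dd G h')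
  have b2 := half_bound hij hik hjk hβ hform hM hg h' h (dd G g')
  set Jh := cur (n := n) G j k (dd G h)
  set P := packHalf (n := n) G i j k g (dd G g') (dd G h')
  set Q := packHalf (n := n) G i j k g (dd G h') (dd G g')
  have hc : ∀ a c : ι → ℝ, Continuous fun σ : V → Spin n => packHalf G i j k g a c σ * Jh σ :=
    fun a c => ((rotd_packHalf (G := G) g a c) i j hij 0).choose_spec.cont.mul (continuous_cur _ _ _)
  have hPc : Continuous fun σ => P σ * Jh σ := hc _ _
  have hQc : Continuous fun σ => Q σ * Jh σ := hc _ _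
  have e : (fun σ => packD G i j k g g' h' σ * Jh σ) = fun σ => P σ * Jh σ - Q σ * Jh σ := by
    funext σ; simp only [packD, P, Q]; ring
  rw [e, av_sub hPc hQc]
  refine (abs_sub _ _).trans ((add_le_add ((abs_av_le hPc).trans b1) ((abs_av_le hQc).trans b2)).trans ?_)
  have h3 : Real.sqrt 3 ≤ 2 := by rw [Real.sqrt_le_iff]; norm_num
  have hT : 0 ≤ nrm (dd G g') * nrm (dd G h') * nrm (dd G h) * part G n β :=
    mul_nonneg (mul_nonneg (mul_nonneg (nrm_nonneg _) (nrm_nonneg _)) (nrm_nonneg _)) part_nonneg_of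
  have hcoef : 2 * (3 / (2 * β) * nrm (dd G g) + Real.sqrt 3 / (β * Real.sqrt β) * M) ≤
      4 / β * nrm (dd G g) + 4 / (β * Real.sqrt β) * M := by
    have h1 : 2 * (3 / (2 * β)) ≤ 4 / β := by
      rw [show 2 * (3 / (2 * β)) = 3 / β by field_simp]; gcongr; norm_num
    have h2 : 2 * (Real.sqrt 3 / (β * Real.sqrt β)) ≤ 4 / (β * Real.sqrt β) := by
      rw [mul_div_assoc']; gcongr; linarith
    nlinarith [mul_le_mul_of_nonneg_right h1 (nrm_nonneg (dd G g)), mul_le_mul_of_nonneg_right h2 hM]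
  nlinarith [mul_le_mul_of_nonneg_right hcoef hT]

end Vale.Agent.P163.Helicity
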