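import Vale.Agent.P163.Helicity.Linear

/-!
The exact identities: rotation derivatives of currents and their consequences by the Ward identity.
-/

noncomputable section

namespace Vale.Agent.P163.Helicity

open MeasureTheory

variable {n : ℕ} {V ι : Type*} [Fintype V] [Fintype ι] {G : Graph V ι}

omit [Fintype V] in
lemma cur_sub (i j : Fin n) (A B : ι → ℝ) (σ : V → Spin n) :
    cur G i j (fun b => A b - B b) σ = cur G i j A σ - cur G i j B σ := by
  simp only [cur, sub_mul, Finset.sum_sub_distrib]

omit [Fintype V] in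
lemma pen_sub (i j : Fin n) (A B : ι → ℝ) (σ : V → Spin n) :
    pen G i j (fun b => A b - B b) σ = pen G i j A σ - pen G i j B σ := by
  simp only [pen, sub_mul, Finset.sum_sub_distrib]

omit [Fintype V] in
lemma pen_sub_pen (i j k : Fin n) (A : ι → ℝ) (σ : V → Spin n) :
    pen G i j A σ - pen G j k A σ = adiff G i k A σ := by
  simp only [pen, adiff, ← Finset.sum_sub_distrib]
  exact Finset.sum_congr rfl fun b _ => by ring

omit [Fintype V] in
lemma cur_zero (i j : Fin n) (σ : V → Spin n) : cur G i j (fun _ => 0) σ = 0 := by simp [cur]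

omit [Fintype V] [Fintype ι] in
lemma dd_const (c : ℝ) : dd G (fun _ => c) = fun _ => 0 := by funext b; simp [dd]

omit [Fintype V] [Fintype ι] in
lemma mid_one : mid G (fun _ => (1 : ℝ)) = fun _ => 1 := by funext b; simp [mid]

lemma rotd_prod_co (a a' : Fin n) (A : ι → ℝ) (c : ℝ) (d d' : Fin n) :
    Rotd fun σ : V → Spin n => ∑ b, A b * (co a (G.src b) σ * co a' (G.tgt b) σ +
      c * (co d (G.src b) σ * co d' (G.tgt b) σ)) :=
  Rotd.sum _ fun b _ => (((Rotd.co a _).mul (Rotd.co a' _)).add
    (((Rotd.co d _).mul (Rotd.co d' _)).const_mul c)).const_mul _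

lemma rotd_cur (i j : Fin n) (A : ι → ℝ) : Rotd (cur (n := n) G i j A) := by
  convert rotd_prod_co (G := G) i j A (-1) j i using 1
  funext σ; exact Finset.sum_congr rfl fun b _ => by ring

lemma rotd_pen (i j : Fin n) (A : ι → ℝ) : Rotd (pen (n := n) G i j A) := by
  convert rotd_prod_co (G := G) i i A 1 j j using 1
  funext σ; exact Finset.sum_congr rfl fun b _ => by ring

lemma rotd_sym (i j : Fin n) (A : ι → ℝ) : Rotd (sym (n := n) G i j A) := by
  convert rotd_prod_co (G := G) i j A 1 j i using 1
  funext σ; exact Finset.sum_congr rfl fun b _ => by ring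

lemma continuous_sym (i j : Fin n) (A : ι → ℝ) : Continuous (sym (n := n) G i j A) := by
  have := fun a x => continuous_co (n := n) (V := V) a x
  unfold sym; fun_prop

lemma continuous_adiff (i j : Fin n) (A : ι → ℝ) : Continuous (adiff (n := n) G i j A) := by
  have := fun a x => continuous_co (n := n) (V := V) a x
  unfold adiff; fun_prop

section Rules

variable {i j k : Fin n}

/-- The current in the plane of the rotation. -/
lemma hasRot_cur_same (h : i ≠ j) (g : V → ℝ) (A : ι → ℝ) :
    HasRot h g (cur G i j A) (fun σ => -pen G i j (fun b => A b * dd G g b) σ) := by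
  unfold cur
  refine (HasRot.sum _ fun b _ => HasRot.const_mul (A b)
    (((hasRot_co h g i (G.src b)).mul (hasRot_co h g j (G.tgt b))).sub
      ((hasRot_co h g j (G.src b)).mul (hasRot_co h g i (G.tgt b))))).congr_deriv fun σ => ?_
  simp only [pen, ← Finset.sum_neg_distrib, if_neg h, if_neg h.symm, ite_true, dd]
  exact Finset.sum_congr rfl fun b _ => by ring

/-- The current in the plane `(j,k)` rotated in the plane `(i,k)`. -/
lemma hasRot_cur_right (hij : i ≠ j) (hik : i ≠ k) (hjk : j ≠ k) (g : V → ℝ) (A : ι → ℝ) :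
    HasRot hik g (cur G j k A) (fun σ => -cur G i j (fun b => A b * mid G g b) σ -
      sym G i j (fun b => A b * dd G g b) σ / 2) := by
  unfold cur
  refine (HasRot.sum _ fun b _ => HasRot.const_mul (A b)
    (((hasRot_co hik g j (G.src b)).mul (hasRot_co hik g k (G.tgt b))).sub
      ((hasRot_co hik g k (G.src b)).mul (hasRot_co hik g j (G.tgt b))))).congr_deriv fun σ => ?_
  simp only [sym, ← Finset.sum_neg_distrib, Finset.sum_div, ← Finset.sum_sub_distrib, if_neg hjk,
    if_neg hij.symm, if_neg hik.symm, ite_true, dd, mid]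
  exact Finset.sum_congr rfl fun b _ => by ring

/-- The current in the plane `(i,j)` rotated in the plane `(i,k)`. -/
lemma hasRot_cur_left (hij : i ≠ j) (hik : i ≠ k) (hjk : j ≠ k) (g : V → ℝ) (A : ι → ℝ) :
    HasRot hik g (cur G i j A) (fun σ => cur G j k (fun b => A b * mid G g b) σ -
      sym G j k (fun b => A b * dd G g b) σ / 2) := by
  unfold cur
  refine (HasRot.sum _ fun b _ => HasRot.const_mul (A b)
    (((hasRot_co hik g i (G.src b)).mul (hasRot_co hik g j (G.tgt b))).sub
      ((hasRot_co hik g j (G.src b)).mul (hasRot_co hik g i (G.tgt b))))).congr_deriv fun σ => ?_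
  simp only [sym, Finset.sum_div, ← Finset.sum_sub_distrib, if_neg hjk, if_neg hij.symm,
    if_neg hik, ite_true, dd, mid]
  exact Finset.sum_congr rfl fun b _ => by ring

/-- The symmetric product in the plane of the rotation. -/
lemma hasRot_sym_same (h : i ≠ j) (g : V → ℝ) (A : ι → ℝ) :
    HasRot h g (sym G i j A) (adiff G i j fun b => A b * (2 * mid G g b)) := by
  unfold sym
  refine (HasRot.sum _ fun b _ => HasRot.const_mul (A b)
    (((hasRot_co h g i (G.src b)).mul (hasRot_co h g j (G.tgt b))).add
      ((hasRot_co h g j (G.src b)).mul (hasRot_co h g i (G.tgt b))))).congr_deriv fun σ => ?_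
  simp only [adiff, if_neg h, if_neg h.symm, ite_true, mid]
  exact Finset.sum_congr rfl fun b _ => by ring

end Rules

variable [NeZero n] {β : ℝ} {i j k : Fin n}

omit [NeZero n] in
lemma av_zero : av G β (fun _ : V → Spin n => (0 : ℝ)) = 0 := by simp [av]

omit [NeZero n] in
lemma av_neg (F : (V → Spin n) → ℝ) : av G β (fun σ => -F σ) = -av G β F := by
  simp only [av, neg_mul, integral_neg]

lemma av_adiff (h : i ≠ j) (A : ι → ℝ) : av G β (adiff G i j A) = 0 := by
  have w := ward (G := G) β (hasRot_sym_same (G := G) h (fun _ => (1 : ℝ)) fun b => A b / 2)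
  have e : (fun b => A b / 2 * (2 * mid G (fun _ => (1 : ℝ)) b)) = A := by
    funext b; simp only [mid_one]; ring
  have z : (fun σ : V → Spin n => sym G i j (fun b => A b / 2) σ *
      cur G i j (dd G fun _ => (1 : ℝ)) σ) = fun _ => (0 : ℝ) := by
    funext σ; rw [dd_const, cur_zero, mul_zero]
  rwa [e, z, av_zero, mul_zero, add_zero] at w

lemma av_pen_eq (hik : i ≠ k) (A : ι → ℝ) :
    av G β (pen G j k A) = av G β (pen G i j A) := by
  have e := av_adiff (G := G) (β := β) hik A
  rw [show adiff G i k A = fun σ => pen G i j A σ - pen G j k A σ from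
    funext fun σ => (pen_sub_pen i j k A σ).symm,
    av_sub (continuous_pen i j A) (continuous_pen j k A)] at e
  linarith

lemma av_cur_cur (h : i ≠ j) (A : ι → ℝ) (g : V → ℝ) :
    β * av G β (fun σ => cur G i j A σ * cur G i j (dd G g) σ) =
      av G β (pen G i j fun b => A b * dd G g b) := by
  have w := ward (G := G) β (hasRot_cur_same (G := G) h g A)
  rw [av_neg] at w
  linarith

lemma av_sym_cur (h : i ≠ j) (A : ι → ℝ) (g : V → ℝ) :
    β * av G β (fun σ => sym G i j A σ * cur G i j (dd G g) σ) = 0 := by
  have w := ward (G := G) β (hasRot_sym_same (G := G) h g A)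
  rw [av_adiff h] at w
  linarith

lemma form_dd (h : i ≠ j) (g : V → ℝ) (B : ι → ℝ) : form G β i j (dd G g) B = 0 := by
  have e := av_cur_cur (G := G) (β := β) h B g
  rw [form]
  simp only [mul_comm (dd G g _) (B _), mul_comm (cur G i j (dd G g) _) (cur G i j B _)]
  rw [← e]; ring

omit [NeZero n] in
lemma hasRot_pack (hij : i ≠ j) (hik : i ≠ k) (hjk : j ≠ k) (g g' h' : V → ℝ) :
    HasRot hik g (pack G i j k g' h') (packD G i j k g g' h') := by
  unfold pack
  exact (((hasRot_cur_same hik g _).mul (hasRot_cur_right hij hik hjk g _)).sub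
    ((hasRot_cur_same hik g _).mul (hasRot_cur_right hij hik hjk g _))).congr_deriv fun σ => by
      simp only [packD, packHalf]

omit [NeZero n] in
lemma rotd_pack (g h : V → ℝ) : Rotd (pack (n := n) G i j k g h) :=
  ((rotd_cur i k _).mul (rotd_cur j k _)).sub ((rotd_cur i k _).mul (rotd_cur j k _))

omit [NeZero n] in
lemma rotd_packHalf (g : V → ℝ) (a c : ι → ℝ) : Rotd (packHalf (n := n) G i j k g a c) := by
  have := (((rotd_pen (n := n) (G := G) i k fun b => a b * dd G g b).const_mul (-1)).mul
    (rotd_cur (G := G) j k c)).add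
    ((rotd_cur (G := G) i k a).mul (((rotd_cur (G := G) i j fun b => c b * mid G g b).const_mul (-1)).sub
      ((rotd_sym (G := G) i j fun b => c b * dd G g b).const_mul (2⁻¹ : ℝ))))
  convert this using 1
  funext σ; simp only [packHalf]; ring

omit [NeZero n] in
lemma rotd_packD (g g' h' : V → ℝ) : Rotd (packD (n := n) G i j k g g' h') :=
  (rotd_packHalf g _ _).sub (rotd_packHalf g _ _)

omit [NeZero n] in
lemma continuous_pack (g h : V → ℝ) : Continuous (pack (n := n) G i j k g h) := by
  have := fun a c A => continuous_cur (G := G) (n := n) a c A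
  unfold pack; fun_prop

/-- The Ward identity for a packet. -/
lemma pair_identity (hij : i ≠ j) (hik : i ≠ k) (hjk : j ≠ k) (g h : V → ℝ)
    {F Fg Fh : (V → Spin n) → ℝ} (hg : HasRot hik g F Fg) (hh : HasRot hik h F Fh) :
    β * av G β (fun σ => F σ * pack G i j k g h σ) +
      av G β (fun σ => Fg σ * cur G j k (dd G h) σ) -
      av G β (fun σ => Fh σ * cur G j k (dd G g) σ) -
      av G β (fun σ => F σ * cur G i j (wgt G g h) σ) = 0 := by
  have key : ∀ (g h : V → ℝ) (Fg : (V → Spin n) → ℝ), HasRot hik g F Fg →
      av G β (fun σ => Fg σ * cur G j k (dd G h) σ) +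
        -av G β (fun σ => F σ * cur G i j (fun b => dd G h b * mid G g b) σ) -
        av G β (fun σ => F σ * sym G i j (fun b => dd G h b * dd G g b) σ) / 2 +
        β * av G β (fun σ => F σ * (cur G i k (dd G g) σ * cur G j k (dd G h) σ)) = 0 := by
    intro g h Fg hg
    have w := ward (G := G) β (hg.mul (hasRot_cur_right (G := G) hij hik hjk g (dd G h)))
    have c1 : Continuous fun σ => Fg σ * cur G j k (dd G h) σ :=
      hg.cont'.mul (continuous_cur j k _)
    have c2 : Continuous fun σ => F σ * cur G i j (fun b => dd G h b * mid G g b) σ :=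
      hg.cont.mul (continuous_cur i j _)
    have c3 : Continuous fun σ => F σ * sym G i j (fun b => dd G h b * dd G g b) σ :=
      hg.cont.mul (continuous_sym i j _)
    have e : (fun σ => Fg σ * cur G j k (dd G h) σ + F σ *
        (-cur G i j (fun b => dd G h b * mid G g b) σ - sym G i j (fun b => dd G h b * dd G g b) σ / 2))
        = fun σ => Fg σ * cur G j k (dd G h) σ -
          (F σ * cur G i j (fun b => dd G h b * mid G g b) σ +
            (1 / 2) * (F σ * sym G i j (fun b => dd G h b * dd G g b) σ)) := by
      funext σ; ring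
    have c3' : Continuous fun σ =>
        (1 / 2 : ℝ) * (F σ * sym G i j (fun b => dd G h b * dd G g b) σ) := continuous_const.mul c3
    rw [e, av_sub c1 (c2.fun_add c3'), av_add c2 c3',
      av_const_mul] at w
    have e2 : (fun σ => F σ * (cur G i k (dd G g) σ * cur G j k (dd G h) σ)) =
        fun σ => F σ * cur G j k (dd G h) σ * cur G i k (dd G g) σ := by funext σ; ring
    rw [e2]
    linarith
  have k1 := key g h Fg hg
  have k2 := key h g Fh hh
  rw [show (fun b => dd G g b * dd G h b) = fun b => dd G h b * dd G g b from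
    funext fun b => mul_comm _ _] at k2
  have hp := fun a c A => continuous_cur (G := G) (n := n) a c A
  have e1 : (fun σ => F σ * pack G i j k g h σ) = fun σ =>
      F σ * (cur G i k (dd G g) σ * cur G j k (dd G h) σ) -
        F σ * (cur G i k (dd G h) σ * cur G j k (dd G g) σ) := by
    funext σ; simp only [pack]; ring
  have e2 : wgt G g h = fun b => dd G h b * mid G g b - dd G g b * mid G h b := by
    funext b; simp only [wgt, dd, mid]; ring
  have e3 : (fun σ => F σ * cur G i j (wgt G g h) σ) = fun σ =>
      F σ * cur G i j (fun b => dd G h b * mid G g b) σ -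
        F σ * cur G i j (fun b => dd G g b * mid G h b) σ := by
    funext σ; rw [e2, cur_sub, mul_sub]
  have c2 : ∀ A, Continuous fun σ => F σ * cur G i j A σ := fun A => hg.cont.mul (hp i j A)
  have c4 : ∀ A B, Continuous fun σ => F σ * (cur G i k A σ * cur G j k B σ) := fun A B =>
    hg.cont.mul ((hp i k A).mul (hp j k B))
  rw [e1, e3, av_sub (c4 _ _) (c4 _ _), av_sub (c2 _) (c2 _)]
  linarith

/-- A current against a packet. -/
lemma cur_pack (hij : i ≠ j) (hik : i ≠ k) (hjk : j ≠ k) (A : ι → ℝ) (g h : V → ℝ) :
    β ^ 3 * av G β (fun σ => cur G i j A σ * pack G i j k g h σ) +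
      form G β i j A (wgt G g h) = 0 := by
  have p := pair_identity (G := G) (β := β) hij hik hjk g h
    (hasRot_cur_left (G := G) hij hik hjk g A) (hasRot_cur_left (G := G) hij hik hjk h A)
  have key : ∀ g h : V → ℝ, β * av G β (fun σ => (cur G j k (fun b => A b * mid G g b) σ -
      sym G j k (fun b => A b * dd G g b) σ / 2) * cur G j k (dd G h) σ) =
      av G β (pen G i j fun b => A b * mid G g b * dd G h b) := by
    intro g h
    have c1 : Continuous fun σ : V → Spin n =>
        cur G j k (fun b => A b * mid G g b) σ * cur G j k (dd G h) σ :=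
      (continuous_cur j k _).mul (continuous_cur j k _)
    have c2 : Continuous fun σ : V → Spin n =>
        (1 / 2 : ℝ) * (sym G j k (fun b => A b * dd G g b) σ * cur G j k (dd G h) σ) :=
      continuous_const.mul ((continuous_sym j k _).mul (continuous_cur j k _))
    rw [show (fun σ => (cur G j k (fun b => A b * mid G g b) σ -
        sym G j k (fun b => A b * dd G g b) σ / 2) * cur G j k (dd G h) σ) = fun σ =>
        cur G j k (fun b => A b * mid G g b) σ * cur G j k (dd G h) σ -
        (1 / 2) * (sym G j k (fun b => A b * dd G g b) σ * cur G j k (dd G h) σ) by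
      funext σ; ring, av_sub c1 c2, av_const_mul, mul_sub,
      av_cur_cur hjk, av_pen_eq hik, ← mul_assoc, mul_comm β (1 / 2 : ℝ), mul_assoc,
      av_sym_cur hjk, mul_zero, sub_zero]
  have k1 := key g h
  have k2 := key h g
  have e : av G β (pen G i j fun b => A b * wgt G g h b) =
      av G β (pen G i j fun b => A b * mid G g b * dd G h b) -
        av G β (pen G i j fun b => A b * mid G h b * dd G g b) := by
    rw [← av_sub (continuous_pen i j _) (continuous_pen i j _)]
    refine congrArg (av G β) (funext fun σ => ?_)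
    rw [← pen_sub]
    refine congrArg (fun X => pen G i j X σ) (funext fun b => ?_)
    simp only [wgt, dd, mid]; ring
  rw [form, e]
  linear_combination β ^ 2 * p - β * k1 + β * k2

theorem alg_stmt : AlgStmt := by
  intro n V ι _ _ _ G β i j k hij hik hjk g h g' h'
  refine ⟨hasRot_pack hij hik hjk g g' h', rotd_pack g' h', rotd_packD g g' h',
    fun F Fg Fh hg hh => pair_identity hij hik hjk g h hg hh,
    fun A => cur_pack hij hik hjk A g h, fun B => form_dd hij g B, fun hβ => ?_⟩
  have w := ward (G := G) β ((hasRot_pack (G := G) hij hik hjk (fun _ => (1 : ℝ)) g' h').mul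
    (hasRot_cur_right (G := G) hij hik hjk (fun _ => (1 : ℝ)) (dd G h)))
  simp only [dd_const, mid_one, mul_one, mul_zero, cur_zero] at w
  have hs : ∀ σ : V → Spin n, sym G i j (fun _ => (0 : ℝ)) σ = 0 := fun σ => by simp [sym]
  simp only [hs, zero_div, sub_zero, mul_neg, ← sub_eq_add_neg, av_zero, mul_zero, add_zero] at w
  have hc := fun a c A => continuous_cur (G := G) (n := n) a c A
  have hP := (rotd_packD (G := G) (i := i) (j := j) (k := k) (fun _ => (1 : ℝ)) g' h' i k hik
    fun _ => 0).choose_spec.cont
  have c1 : Continuous fun σ : V → Spin n =>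
      packD G i j k (fun _ => (1 : ℝ)) g' h' σ * cur G j k (dd G h) σ := hP.mul (hc _ _ _)
  have c2 : Continuous fun σ : V → Spin n => pack G i j k g' h' σ * cur G i j (fun b => dd G h b) σ :=
    (continuous_pack g' h').mul (hc _ _ _)
  rw [av_sub c1 c2] at w
  have c := cur_pack (G := G) (β := β) hij hik hjk (dd G h) g' h'
  rw [form_dd hij, add_zero, mul_eq_zero] at c
  have c' := c.resolve_left (pow_ne_zero _ hβ.ne')
  rw [sub_eq_zero] at w
  rw [w, ← c']
  exact congrArg (av G β) (funext fun σ => mul_comm _ _)

end Vale.Agent.P163.Helicity
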