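import Vale.Agent.P163.Helicity.Spec

/-!
Linearity of currents, locality of derivatives and pointwise bounds on the planar energy.
-/

noncomputable section

namespace Vale.Agent.P163.Helicity

open MeasureTheory Metric
open scoped RealInnerProductSpace

variable {n : ℕ} {V ι : Type*} [Fintype V] [Fintype ι] {G : Graph V ι}

omit [Fintype V] in
lemma cur_add (i j : Fin n) (A B : ι → ℝ) (σ : V → Spin n) :
    cur G i j (fun b => A b + B b) σ = cur G i j A σ + cur G i j B σ := by
  simp only [cur, add_mul, Finset.sum_add_distrib]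

omit [Fintype V] in
lemma cur_smul (i j : Fin n) (c : ℝ) (A : ι → ℝ) (σ : V → Spin n) :
    cur G i j (fun b => c * A b) σ = c * cur G i j A σ := by
  simp only [cur, mul_assoc, ← Finset.mul_sum]

omit [Fintype V] in
lemma cur_sum {κ : Type*} (s : Finset κ) (i j : Fin n) (A : κ → ι → ℝ) (σ : V → Spin n) :
    cur G i j (fun b => ∑ y ∈ s, A y b) σ = ∑ y ∈ s, cur G i j (A y) σ := by
  simp only [cur, Finset.sum_mul]
  exact Finset.sum_comm

lemma continuous_cur (i j : Fin n) (A : ι → ℝ) : Continuous (cur (n := n) G i j A) := by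
  have h := fun (a : Fin n) (x : V) => continuous_co (n := n) a x
  unfold cur; fun_prop

lemma continuous_pen (i j : Fin n) (A : ι → ℝ) : Continuous (pen (n := n) G i j A) := by
  have h := fun (a : Fin n) (x : V) => continuous_co (n := n) a x
  unfold pen; fun_prop

omit [Fintype V] in
lemma co_sq_add_sq_le {i j : Fin n} (h : i ≠ j) (x : V) (σ : V → Spin n) :
    co i x σ ^ 2 + co j x σ ^ 2 ≤ 1 := by
  have h1 : ∑ a, co a x σ ^ 2 = 1 := by
    have := inner_eq_sum (σ x : Euc n) (σ x : Euc n)
    rw [real_inner_self_eq_norm_sq, norm_eq_of_mem_sphere, one_pow] at this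
    simp only [co, pow_two, ← this]
  rw [← h1, ← Finset.sum_pair (f := fun a => co a x σ ^ 2) h]
  exact Finset.sum_le_sum_of_subset_of_nonneg (Finset.subset_univ _) fun a _ _ => sq_nonneg _

omit [Fintype V] in
lemma pen_sq_le {i j : Fin n} (h : i ≠ j) (A : ι → ℝ) (σ : V → Spin n) :
    pen G i j (fun b => A b * A b) σ ≤ ∑ b, A b * A b := by
  refine Finset.sum_le_sum fun b _ => mul_le_of_le_one_right (mul_self_nonneg _) ?_
  have h1 := co_sq_add_sq_le h (G.src b) σ
  have h2 := co_sq_add_sq_le h (G.tgt b) σ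
  nlinarith [sq_nonneg (co i (G.src b) σ - co i (G.tgt b) σ),
    sq_nonneg (co j (G.src b) σ - co j (G.tgt b) σ)]

lemma part_nonneg (n : ℕ) (β : ℝ) : 0 ≤ part G n β := av_nonneg fun _ => zero_le_one

/-- The form is at most `β` times the bond weights. -/
lemma form_self_le [NeZero n] {β : ℝ} (hβ : 0 ≤ β) {i j : Fin n} (h : i ≠ j) (A : ι → ℝ) :
    form G β i j A A ≤ β * (∑ b, A b * A b) * part G n β := by
  have h1 : av G β (pen G i j fun b => A b * A b) ≤ (∑ b, A b * A b) * part G n β := by
    have := av_mono (G := G) (β := β) (continuous_pen (G := G) i j fun b => A b * A b)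
      continuous_const (pen_sq_le (G := G) h A)
    rwa [part, ← av_const_mul, show (fun _ : V → Spin n => (∑ b, A b * A b) * 1) =
      fun _ => ∑ b, A b * A b by simp]
  have h2 : 0 ≤ av G β fun σ => cur G i j A σ * cur G i j A σ :=
    av_nonneg fun σ => mul_self_nonneg _
  unfold form
  nlinarith [mul_le_mul_of_nonneg_left h1 hβ, mul_nonneg (sq_nonneg β) h2]

omit [Fintype V] [Fintype ι] in
/-- Derivatives of local observables are local. -/
lemma Loc.deriv {S : Set V} {F F' : (V → Spin n) → ℝ} (hS : Loc S F) {i j : Fin n} {h : i ≠ j}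
    {g : V → ℝ} (hF : HasRot h g F F') : Loc S F' := fun σ τ e => by
  refine (hF.deriv σ).unique ((hF.deriv τ).congr_of_eventuallyEq
    (Filter.Eventually.of_forall fun t => hS _ _ fun x hx => ?_))
  apply Subtype.ext
  simp only [rot, rotF_coe, e x hx]

omit [Fintype V] in
lemma loc_cur {S : Set V} (i j : Fin n) {A : ι → ℝ}
    (hA : ∀ b, A b ≠ 0 → G.src b ∈ S ∧ G.tgt b ∈ S) : Loc S (cur (n := n) G i j A) :=
  fun σ τ e => Finset.sum_congr rfl fun b _ => by
    by_cases hb : A b = 0
    · simp [hb]
    · simp only [co, e _ (hA b hb).1, e _ (hA b hb).2]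

omit [Fintype V] in
lemma loc_pack {S : Set V} (i j k : Fin n) {g h : V → ℝ}
    (hA : ∀ b, dd G g b ≠ 0 ∨ dd G h b ≠ 0 → G.src b ∈ S ∧ G.tgt b ∈ S) :
    Loc S (pack (n := n) G i j k g h) := fun σ τ e => by
  have hg := fun a c => loc_cur (n := n) (G := G) a c (fun b hb => hA b (Or.inl hb)) σ τ e
  have hh := fun a c => loc_cur (n := n) (G := G) a c (fun b hb => hA b (Or.inr hb)) σ τ e
  simp only [pack, hg, hh]

omit [Fintype V] in
/-- Adding a constant to the rotation field. -/
lemma packD_add_const (i j k : Fin n) (g g' h' : V → ℝ) (c : ℝ) (σ : V → Spin n) :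
    packD G i j k (fun x => g x + c) g' h' σ =
      packD G i j k g g' h' σ + c * packD G i j k (fun _ => 1) g' h' σ := by
  have e1 : dd G (fun x => g x + c) = dd G g := by funext b; simp [dd]
  have e2 : dd G (fun _ : V => (1 : ℝ)) = 0 := by funext b; simp [dd]
  have e3 : ∀ a : ι → ℝ, (fun b => a b * mid G (fun x => g x + c) b) =
      fun b => a b * mid G g b + c * a b := fun a => by funext b; simp only [mid]; ring
  have e4 : ∀ a : ι → ℝ, (fun b => a b * mid G (fun _ : V => (1 : ℝ)) b) = a := fun a => by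
    funext b; simp [mid]
  simp only [packD, packHalf, e1, e2, e3, e4, cur_add, cur_smul, Pi.zero_apply, mul_zero, pen, sym,
    zero_mul, Finset.sum_const_zero, neg_zero, zero_div, sub_zero]
  ring

end Vale.Agent.P163.Helicity
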