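import Vale.Agent.P163.Helicity.Linear

/-!
Diamagnetic inequalities from the positivity of the gauge partition function.
-/

noncomputable section

namespace Vale.Agent.P163.Helicity

open MeasureTheory Metric Filter Topology

variable {n : ℕ} {V ι : Type*} [Fintype V] [Fintype ι]

/-- Differentiation of an integral over spin configurations in a parameter. -/
lemma hasDerivAt_param [NeZero n] {f f' : ℝ → (V → Spin n) → ℝ}
    (hf : Continuous fun p : ℝ × (V → Spin n) => f p.1 p.2)
    (hf' : Continuous fun p : ℝ × (V → Spin n) => f' p.1 p.2)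
    (hd : ∀ t σ, HasDerivAt (fun s => f s σ) (f' t σ) t) (t : ℝ) :
    HasDerivAt (fun s => ∫ σ, f s σ ∂freeLaw V n) (∫ σ, f' t σ ∂freeLaw V n) t := by
  have hc : ∀ s, Continuous (f s) := fun s => hf.comp (by fun_prop : Continuous fun σ => (s, σ))
  have hc' : ∀ s, Continuous (f' s) := fun s =>
    hf'.comp (by fun_prop : Continuous fun σ => (s, σ))
  obtain ⟨M, hM⟩ := ((isCompact_closedBall t 1).prod
    (isCompact_univ (X := V → Spin n))).exists_bound_of_continuousOn hf'.continuousOn
  exact (hasDerivAt_integral_of_dominated_loc_of_deriv_le (μ := freeLaw V n)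
    (F := f) (F' := f') (x₀ := t) (bound := fun _ => M) (s := closedBall t 1)
    (closedBall_mem_nhds t one_pos)
    (Eventually.of_forall fun s => (hc s).aestronglyMeasurable)
    (integ (hc t)) (hc' t).aestronglyMeasurable
    (Eventually.of_forall fun σ s hs => hM (s, σ) ⟨hs, Set.mem_univ _⟩)
    (integrable_const M)
    (Eventually.of_forall fun σ s _ => hd s σ)).2

lemma zA_zero (G : Graph V ι) (β : ℝ) (i j : Fin n) (A : ι → ℝ) :
    zA G β i j A 0 = part G n β := by
  simp [zA, enT, part, av, pen, cur]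

/-- The limit of the scaled second difference at a maximum. -/
lemma tendsto_second_diff {P P1 : ℝ → ℝ} {K : ℝ} (h1 : ∀ t, HasDerivAt P (P1 t) t)
    (h0 : P1 0 = 0) (h2 : HasDerivAt P1 K 0) (t : ℝ) :
    Tendsto (fun m : ℕ => (m : ℝ) ^ 2 * (P 0 - P (t / m))) atTop (𝓝 (-(t ^ 2 / 2 * K))) := by
  rw [Metric.tendsto_atTop]
  intro ε hε
  set η := ε / (t ^ 2 + 1) with hη
  have hη0 : 0 < η := by positivity
  have hsmall : ∀ᶠ s in 𝓝 (0 : ℝ), ‖P1 s - s * K‖ ≤ η * ‖s‖ := by
    have := (hasDerivAt_iff_isLittleO_nhds_zero.1 h2).def hη0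
    simpa [h0, smul_eq_mul] using this
  obtain ⟨ρ, hρ, hb⟩ := Metric.eventually_nhds_iff.1 hsmall
  obtain ⟨N, hN⟩ := exists_nat_gt (|t| / ρ)
  refine ⟨max N 1, fun m hm => ?_⟩
  have hm1 : (1 : ℝ) ≤ m := by exact_mod_cast le_of_max_le_right hm
  have hmN : (N : ℝ) ≤ m := by exact_mod_cast le_of_max_le_left hm
  set h := t / m with hh
  have hlt : |h| < ρ := by
    rw [hh, abs_div, Nat.abs_cast, div_lt_iff₀ (by linarith)]
    rw [div_lt_iff₀ hρ] at hN
    nlinarith
  have hmv := Convex.norm_image_sub_le_of_norm_hasDerivWithin_le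
    (f := fun s => P s - s ^ 2 / 2 * K) (f' := fun s => P1 s - s * K) (C := η * |h|)
    (s := closedBall (0:ℝ) |h|) (fun s _ => ?_) (fun s hs => ?_) (convex_closedBall _ _)
    (mem_closedBall_self (abs_nonneg h)) (show h ∈ closedBall (0:ℝ) |h| by simp)
  · simp only [Real.norm_eq_abs, ne_eq, OfNat.ofNat_ne_zero, not_false_eq_true, zero_pow, zero_div,
      zero_mul, sub_zero] at hmv
    have e : (m : ℝ) ^ 2 * (P 0 - P h) - -(t ^ 2 / 2 * K) =
        -((m : ℝ) ^ 2 * (P h - h ^ 2 / 2 * K - P 0)) := by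
      have : t = m * h := by rw [hh]; field_simp
      rw [this]; ring
    rw [Real.dist_eq, e, abs_neg, abs_mul, abs_of_nonneg (sq_nonneg (m : ℝ))]
    calc (m : ℝ) ^ 2 * |P h - h ^ 2 / 2 * K - P 0| ≤ (m : ℝ) ^ 2 * (η * |h| * |h|) :=
          mul_le_mul_of_nonneg_left hmv (sq_nonneg _)
      _ = η * t ^ 2 := by rw [hh, abs_div, Nat.abs_cast]; field_simp; rw [sq_abs]
      _ < ε := by rw [hη, div_mul_eq_mul_div, div_lt_iff₀ (by positivity)]; nlinarith
  · refine (HasDerivAt.sub (h1 s) ?_).hasDerivWithinAt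
    exact (((hasDerivAt_pow 2 s).div_const 2).mul_const K).congr_deriv (by ring)
  · rw [mem_closedBall, dist_zero_right, Real.norm_eq_abs] at hs
    refine (hb ?_).trans ?_
    · rw [dist_zero_right, Real.norm_eq_abs]; linarith
    · rw [Real.norm_eq_abs]; exact mul_le_mul_of_nonneg_left hs hη0.le

/-- The diamagnetic inequalities. -/
theorem dia_stmt (hP : PosStmt) : DiaStmt := by
  intro n V ι _ _ _ G β hβ i j hij A t
  set f : ℝ → (V → Spin n) → ℝ := fun s σ => Real.exp (β * enT G i j A s σ) with hf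
  set e1 : ℝ → (V → Spin n) → ℝ := fun s σ =>
    pen G i j (fun b => -(A b * Real.sin (s * A b))) σ +
      cur G i j (fun b => A b * Real.cos (s * A b)) σ with he1
  set e2 : ℝ → (V → Spin n) → ℝ := fun s σ =>
    pen G i j (fun b => -(A b * A b * Real.cos (s * A b))) σ +
      cur G i j (fun b => -(A b * A b * Real.sin (s * A b))) σ with he2
  set f1 : ℝ → (V → Spin n) → ℝ := fun s σ => β * e1 s σ * f s σ with hf1
  set f2 : ℝ → (V → Spin n) → ℝ := fun s σ => (β * e2 s σ + β ^ 2 * e1 s σ ^ 2) * f s σ with hf2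
  have hlin : ∀ b s, HasDerivAt (fun s => s * A b) (A b) s := fun b s => by
    simpa using (hasDerivAt_id s).mul_const (A b)
  have hde : ∀ s σ, HasDerivAt (fun s => enT G i j A s σ) (e1 s σ) s := by
    intro s σ
    simp only [enT, pen, cur, he1]
    refine ((HasDerivAt.fun_sum fun b _ => ?_).const_add _).fun_add
      (HasDerivAt.fun_sum fun b _ => ?_)
    · exact (((hlin b s).cos.sub_const 1).mul_const _).congr_deriv (by ring)
    · exact ((hlin b s).sin.mul_const _).congr_deriv (by ring)
  have hde1 : ∀ s σ, HasDerivAt (fun s => e1 s σ) (e2 s σ) s := by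
    intro s σ
    simp only [pen, cur, he1, he2]
    refine (HasDerivAt.fun_sum fun b _ => ?_).fun_add (HasDerivAt.fun_sum fun b _ => ?_)
    · exact ((((hlin b s).sin.const_mul (A b)).fun_neg).mul_const _).congr_deriv (by ring)
    · exact (((hlin b s).cos.const_mul (A b)).mul_const _).congr_deriv (by ring)
  have hd : ∀ s σ, HasDerivAt (fun s => f s σ) (f1 s σ) s := fun s σ =>
    ((hde s σ).const_mul β).exp.congr_deriv (by simp only [hf1, hf]; ring)
  have hd1 : ∀ s σ, HasDerivAt (fun s => f1 s σ) (f2 s σ) s := fun s σ =>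
    (((hde1 s σ).const_mul β).fun_mul (hd s σ)).congr_deriv (by simp only [hf1, hf2]; ring)
  have hco := fun (a : Fin n) (x : V) => continuous_co (n := n) a x
  have hen : Continuous (en (n := n) G) := continuous_en
  have hc : Continuous fun p : ℝ × (V → Spin n) => f p.1 p.2 := by
    simp only [hf, enT, pen, cur]; fun_prop
  have hc1 : Continuous fun p : ℝ × (V → Spin n) => f1 p.1 p.2 := by
    simp only [hf1, he1, hf, enT, pen, cur]; fun_prop
  have hc2 : Continuous fun p : ℝ × (V → Spin n) => f2 p.1 p.2 := by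
    simp only [hf2, he1, he2, hf, enT, pen, cur]; fun_prop
  set P1 : ℝ → ℝ := fun s => ∫ σ, f1 s σ ∂freeLaw V n with hP1
  have hP' : ∀ s, HasDerivAt (zA G β i j A) (P1 s) s := hasDerivAt_param hc hc1 hd
  have hP'' : HasDerivAt P1 (∫ σ, f2 0 σ ∂freeLaw V n) 0 := hasDerivAt_param hc1 hc2 hd1 0
  have hK : ∫ σ, f2 0 σ ∂freeLaw V n = -form G β i j A A := by
    have hi1 : Integrable (fun σ => pen G i j (fun b => A b * A b) σ * Real.exp (β * en G σ))
        (freeLaw V n) := integrable_av (continuous_pen (G := G) i j _)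
    have hi2 : Integrable (fun σ => cur G i j A σ * cur G i j A σ * Real.exp (β * en G σ))
        (freeLaw V n) :=
      integrable_av ((continuous_cur (G := G) i j A).mul (continuous_cur (G := G) i j A))
    rw [form, av, av, ← integral_const_mul, ← integral_const_mul,
      ← integral_sub (hi1.const_mul β) (hi2.const_mul (β ^ 2)), ← integral_neg]
    refine integral_congr_ae (Eventually.of_forall fun σ => ?_)
    simp only [hf2, he1, he2, hf, enT, pen, cur, zero_mul, Real.cos_zero, Real.sin_zero, mul_zero,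
      neg_zero, mul_one, sub_self, Finset.sum_const_zero, add_zero, zero_add, neg_mul,
      Finset.sum_neg_distrib]
    ring
  have hmax : ∀ s, zA G β i j A s ≤ zA G β i j A 0 := fun s =>
    (hP n V ι G β hβ i j hij A s).1
  have h0 : P1 0 = 0 :=
    (IsLocalMax.hasDerivAt_eq_zero (Eventually.of_forall hmax) (hP' 0))
  have hlim := tendsto_second_diff hP' h0 hP''
  have hform : 0 ≤ form G β i j A A := by
    have := ge_of_tendsto' (hlim 1) fun m =>
      mul_nonneg (sq_nonneg _) (sub_nonneg.2 (hmax _))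
    rw [hK] at this
    linarith
  have hzero := zA_zero G β i j A
  refine ⟨hform, hzero, hzero ▸ hmax t, ?_⟩
  have h := hlim t
  rw [hK] at h
  have h2 : zA G β i j A 0 - zA G β i j A t ≤ -(t ^ 2 / 2 * -form G β i j A A) :=
    ge_of_tendsto h (eventually_atTop.2 ⟨1, fun m hm =>
      (hP n V ι G β hβ i j hij A t).2 m hm⟩)
  rw [hzero] at h2
  linarith

end Vale.Agent.P163.Helicity
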