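import Vale.Agent.P163.Helicity.Tents

/-!
Facts about the bump potentials on the torus.
-/

noncomputable section

namespace Vale.Agent.P163.Helicity.Geo

variable {Lx Ly : ℕ}

/-! Bonds. -/

/-- The displacement along a bond. -/
def step (b : (ZMod Lx × ZMod Ly) × Bool) : ZMod Lx × ZMod Ly := if b.2 then (0, 1) else (1, 0)

lemma src_eq (b : (ZMod Lx × ZMod Ly) × Bool) : (torus Lx Ly).src b = b.1 := rfl

lemma tgt_eq (b : (ZMod Lx × ZMod Ly) × Bool) : (torus Lx Ly).tgt b = b.1 + step b := rfl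

variable [NeZero Lx] [NeZero Ly]

lemma step_cd (hx : 3 ≤ Lx) (hy : 3 ≤ Ly) (b : (ZMod Lx × ZMod Ly) × Bool) :
    cd (step b).1 + cd (step b).2 = 1 := by
  unfold step; split_ifs <;> simp [cd_zero, cd_one hx, cd_one hy]

lemma cd_src_le (hx : 3 ≤ Lx) (hy : 3 ≤ Ly) (x : ZMod Lx × ZMod Ly)
    (b : (ZMod Lx × ZMod Ly) × Bool) :
    cd (b.1 - x).1 ≤ cd (b.1 + step b - x).1 + 1 ∧
      cd (b.1 - x).2 ≤ cd (b.1 + step b - x).2 + 1 ∧
      cd (b.1 + step b - x).1 ≤ cd (b.1 - x).1 + 1 ∧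
      cd (b.1 + step b - x).2 ≤ cd (b.1 - x).2 + 1 := by
  have hs := step_cd hx hy b
  have := cd_nonneg (step b).1
  have := cd_nonneg (step b).2
  have h1 := abs_le.1 (abs_cd_sub (b.1 + step b - x).1 (b.1 - x).1)
  have h2 := abs_le.1 (abs_cd_sub (b.1 + step b - x).2 (b.1 - x).2)
  rw [show (b.1 + step b - x).1 - (b.1 - x).1 = (step b).1 by
    simp only [Prod.fst_sub, Prod.fst_add]; ring] at h1
  rw [show (b.1 + step b - x).2 - (b.1 - x).2 = (step b).2 by
    simp only [Prod.snd_sub, Prod.snd_add]; ring] at h2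
  refine ⟨?_, ?_, ?_, ?_⟩ <;> linarith

lemma chi_bond (hx : 3 ≤ Lx) (hy : 3 ≤ Ly) (R : ℕ) (y : ZMod Lx × ZMod Ly)
    (b : (ZMod Lx × ZMod Ly) × Bool) :
    |chi R (b.1 + step b - y) - chi R (b.1 - y)| ≤ 1 / R := by
  have h := chi_lip R (b.1 - y) (b.1 + step b - y)
  rwa [show b.1 + step b - y - (b.1 - y) = step b by abel, step_cd hx hy b] at h

lemma hb_bond {R : ℕ} (hR : 1 ≤ R) (hLx : 12 * R ≤ Lx) (hLy : 12 * R ≤ Ly)
    (y : ZMod Lx × ZMod Ly) (b : (ZMod Lx × ZMod Ly) × Bool) :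
    |hb R y (b.1 + step b) - hb R y b.1| ≤ 2 / R := by
  have hx : 3 ≤ Lx := by omega
  have hy : 3 ≤ Ly := by omega
  have hR' : (1 : ℝ) ≤ R := by exact_mod_cast hR
  have hL' : 12 * (R : ℝ) ≤ Lx := by exact_mod_cast hLx
  have hχ := chi_bond hx hy R y b
  set s := b.1 - y with hs
  set t := b.1 + step b - y with ht
  have hc := cd_src_le hx hy y b
  show |chi R t * (t.1.valMinAbs : ℝ) / (2 * R) - chi R s * (s.1.valMinAbs : ℝ) / (2 * R)| ≤ _
  rw [← sub_div, abs_div, abs_of_pos (by linarith : (0 : ℝ) < 2 * R),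
    div_le_div_iff₀ (by linarith) (by linarith)]
  suffices H : |chi R t * (t.1.valMinAbs : ℝ) - chi R s * (s.1.valMinAbs : ℝ)| ≤ 4 by nlinarith
  by_cases h0 : chi R s = 0
  · by_cases h1 : chi R t = 0
    · simp [h0, h1]
    · have h2 := (chi_lt h1).1
      rw [h0] at hχ ⊢
      simp only [sub_zero, zero_mul, abs_mul] at hχ ⊢
      calc |chi R t| * cd t.1 ≤ 1 / R * (2 * R) :=
            mul_le_mul hχ h2.le (cd_nonneg _) (by positivity)
        _ ≤ 4 := by field_simp; norm_num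
  · have h2 := (chi_lt h0).1
    have hd : |(t.1.valMinAbs : ℝ) - s.1.valMinAbs| ≤ 1 := by
      by_cases hb : b.2 = true
      · have : t.1 = s.1 := by simp [hs, ht, step, hb]
        simp [this]
      · have : t.1 = s.1 + 1 := by simp [hs, ht, step, hb]; ring
        rw [this, vma_succ (by linarith)]; simp
    have e : chi R t * (t.1.valMinAbs : ℝ) - chi R s * (s.1.valMinAbs : ℝ) =
        (chi R t - chi R s) * t.1.valMinAbs + chi R s * (t.1.valMinAbs - s.1.valMinAbs) := by ring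
    rw [e]
    have a1 : |(chi R t - chi R s) * (t.1.valMinAbs : ℝ)| ≤ 1 / R * (2 * R + 1) := by
      rw [abs_mul]
      exact mul_le_mul hχ (show cd t.1 ≤ _ by linarith [hc.2.2.1]) (abs_nonneg _) (by positivity)
    have a2 : |chi R s * ((t.1.valMinAbs : ℝ) - s.1.valMinAbs)| ≤ 1 := by
      rw [abs_mul, abs_of_nonneg (chi_nonneg _ _)]
      exact mul_le_one₀ (chi_le_one _ _) (abs_nonneg _) hd
    have a3 : 1 / (R : ℝ) * (2 * R + 1) ≤ 3 := by
      rw [div_mul_eq_mul_div, div_le_iff₀ (by linarith)]; linarith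
    have := abs_add_le ((chi R t - chi R s) * (t.1.valMinAbs : ℝ))
      (chi R s * ((t.1.valMinAbs : ℝ) - s.1.valMinAbs))
    linarith

lemma pot_bond {R : ℕ} (hR : 1 ≤ R) (hLx : 12 * R ≤ Lx) (hLy : 12 * R ≤ Ly)
    {y : ZMod Lx × ZMod Ly} {f : ZMod Lx × ZMod Ly → ℝ} (hf : f = gb R y ∨ f = hb R y)
    (b : (ZMod Lx × ZMod Ly) × Bool) : |f (b.1 + step b) - f b.1| ≤ 2 / R := by
  rcases hf with rfl | rfl
  · refine (chi_bond (by omega) (by omega) R y b).trans ?_
    exact div_le_div_of_nonneg_right one_le_two (Nat.cast_nonneg R)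
  · exact hb_bond hR hLx hLy y b

omit [NeZero Lx] [NeZero Ly] in
lemma path_le {f : ZMod Lx × ZMod Ly → ℝ} {K : ℝ}
    (h : ∀ b : (ZMod Lx × ZMod Ly) × Bool, |f (b.1 + step b) - f b.1| ≤ K)
    (x z : ZMod Lx × ZMod Ly) : |f z - f x| ≤ K * (cd (z - x).1 + cd (z - x).2) := by
  have h1 := line_le (g := fun a => f (a, x.2))
    (fun a => by simpa [step] using h ((a, x.2), false)) x.1 (z - x).1.valMinAbs
  have h2 := line_le (g := fun a => f (z.1, a))
    (fun a => by simpa [step] using h ((z.1, a), true)) x.2 (z - x).2.valMinAbs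
  simp only [ZMod.coe_valMinAbs, Prod.fst_sub, Prod.snd_sub, add_sub_cancel] at h1 h2
  have := abs_sub_le (f (z.1, z.2)) (f (z.1, x.2)) (f (x.1, x.2))
  simp only [Prod.mk.eta] at this h1 h2 ⊢
  simp only [cd, Prod.fst_sub, Prod.snd_sub, mul_add]
  linarith

/-! Boxes. -/

/-- The square of radius `N` around `x`, as a finset. -/
def box (N : ℕ) (x : ZMod Lx × ZMod Ly) : Finset (ZMod Lx × ZMod Ly) :=
  (Finset.Icc (-(N : ℤ)) N ×ˢ Finset.Icc (-(N : ℤ)) N).image
    fun u => x + ((u.1 : ZMod Lx), (u.2 : ZMod Ly))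

omit [NeZero Lx] [NeZero Ly] in
lemma mem_box {N : ℕ} {x z : ZMod Lx × ZMod Ly} (h1 : cd (z - x).1 ≤ N) (h2 : cd (z - x).2 ≤ N) :
    z ∈ box N x := by
  rw [← cd_le_iff] at h1 h2
  refine Finset.mem_image.2 ⟨((z - x).1.valMinAbs, (z - x).2.valMinAbs), ?_, ?_⟩
  · simp only [Finset.mem_product, Finset.mem_Icc]; omega
  · ext <;> simp

omit [NeZero Lx] [NeZero Ly] in
lemma card_box (N : ℕ) (x : ZMod Lx × ZMod Ly) :
    ((box N x).card : ℝ) ≤ (2 * (N : ℝ) + 1) ^ 2 := by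
  have h : (Finset.Icc (-(N : ℤ)) N).card = 2 * N + 1 := by simp; omega
  have := Finset.card_image_le (s := Finset.Icc (-(N : ℤ)) N ×ˢ Finset.Icc (-(N : ℤ)) N)
    (f := fun u => x + ((u.1 : ZMod Lx), (u.2 : ZMod Ly)))
  rw [Finset.card_product, h] at this
  calc ((box N x).card : ℝ) ≤ (((2 * N + 1) * (2 * N + 1) : ℕ) : ℝ) := by exact_mod_cast this
    _ = _ := by push_cast; ring

lemma nrm_le {A : (ZMod Lx × ZMod Ly) × Bool → ℝ} {K : ℝ} (hK : 0 ≤ K) {N : ℕ}
    {x : ZMod Lx × ZMod Ly} (hb : ∀ b, |A b| ≤ K) (hs : ∀ b, A b ≠ 0 → b.1 ∈ box N x) :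
    nrm A ≤ K * (2 * (2 * (N : ℝ) + 1)) := by
  rw [nrm, Real.sqrt_le_iff]
  refine ⟨by positivity, ?_⟩
  classical
  calc ∑ b, A b ^ 2 = ∑ b ∈ box N x ×ˢ (Finset.univ : Finset Bool), A b ^ 2 := by
        refine (Finset.sum_subset (Finset.subset_univ _) fun b _ hb' => ?_).symm
        by_contra hne
        exact hb' (Finset.mem_product.2 ⟨hs b fun e => hne (by simp [e]), Finset.mem_univ _⟩)
    _ ≤ ∑ b ∈ box N x ×ˢ (Finset.univ : Finset Bool), K ^ 2 :=
        Finset.sum_le_sum fun b _ => sq_le_sq.2 (by rw [abs_of_nonneg hK]; exact hb b)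
    _ = ((box N x).card : ℝ) * 2 * K ^ 2 := by simp
    _ ≤ (2 * (N : ℝ) + 1) ^ 2 * 2 * K ^ 2 := by
        have := card_box N x
        gcongr
    _ ≤ (K * (2 * (2 * (N : ℝ) + 1))) ^ 2 := by
        have := mul_nonneg (sq_nonneg (2 * (N : ℝ) + 1)) (sq_nonneg K)
        nlinarith

omit [NeZero Lx] [NeZero Ly] in
lemma cd_of_pot_ne {R : ℕ} {y z : ZMod Lx × ZMod Ly} {f : ZMod Lx × ZMod Ly → ℝ}
    (hf : f = gb R y ∨ f = hb R y) (h : f z ≠ 0) :
    cd (z - y).1 < 2 * R ∧ cd (z - y).2 < 2 * R := by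
  apply chi_lt
  rcases hf with rfl | rfl
  · exact h
  · intro e; exact h (by simp [hb, e])

omit [NeZero Lx] [NeZero Ly] in
lemma dd_eq (f : ZMod Lx × ZMod Ly → ℝ) (b : (ZMod Lx × ZMod Ly) × Bool) :
    dd (torus Lx Ly) f b = f b.1 - f (b.1 + step b) := rfl

lemma supp_dd {r : ℕ} (hr : 1 ≤ r) (hx : 3 ≤ Lx) (hy : 3 ≤ Ly) {x : ZMod Lx × ZMod Ly}
    {f : ZMod Lx × ZMod Ly → ℝ} (hf : f = gb r x ∨ f = hb r x)
    {b : (ZMod Lx × ZMod Ly) × Bool} (h : dd (torus Lx Ly) f b ≠ 0) :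
    cd (b.1 - x).1 ≤ (3 * r : ℕ) ∧ cd (b.1 - x).2 ≤ (3 * r : ℕ) ∧
      cd (b.1 + step b - x).1 ≤ (3 * r : ℕ) ∧ cd (b.1 + step b - x).2 ≤ (3 * r : ℕ) := by
  have hr' : (1 : ℝ) ≤ r := by exact_mod_cast hr
  obtain ⟨c1, c2, c3, c4⟩ := cd_src_le hx hy x b
  push_cast
  by_cases h0 : f b.1 = 0
  · have h1 : f (b.1 + step b) ≠ 0 := fun e => h (by simp [dd_eq, h0, e])
    obtain ⟨u, v⟩ := cd_of_pot_ne hf h1
    refine ⟨?_, ?_, ?_, ?_⟩ <;> linarith
  · obtain ⟨u, v⟩ := cd_of_pot_ne hf h0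
    refine ⟨?_, ?_, ?_, ?_⟩ <;> linarith

lemma nrm_dd_pot {r : ℕ} (hr : 1 ≤ r) (hLx : 12 * r ≤ Lx) (hLy : 12 * r ≤ Ly)
    {x : ZMod Lx × ZMod Ly} {f : ZMod Lx × ZMod Ly → ℝ} (hf : f = gb r x ∨ f = hb r x) :
    nrm (dd (torus Lx Ly) f) ≤ 40 := by
  have hr' : (1 : ℝ) ≤ r := by exact_mod_cast hr
  refine (nrm_le (K := 2 / r) (by positivity) (N := 3 * r) (x := x) (fun b => ?_)
    fun b hb => ?_).trans ?_
  · rw [dd_eq, abs_sub_comm]; exact pot_bond hr hLx hLy hf b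
  · obtain ⟨u, v, -, -⟩ := supp_dd hr (by omega) (by omega) hf hb
    exact mem_box u v
  · push_cast
    rw [div_mul_eq_mul_div, div_le_iff₀ (by linarith)]; linarith

omit [NeZero Lx] [NeZero Ly] in
lemma wgt_vert (R : ℕ) (y z : ZMod Lx × ZMod Ly) :
    wgt (torus Lx Ly) (gb R y) (hb R y) (z, true) = 0 := by
  have e : (z + (0, 1) - y).1 = (z - y).1 := by simp
  simp only [wgt, torus, gb, hb, if_true, e]
  ring

omit [NeZero Lx] [NeZero Ly] in
lemma wgt_shift (R : ℕ) (y z : ZMod Lx × ZMod Ly) :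
    wgt (torus Lx Ly) (gb R y) (hb R y) (z, false) =
      wgt (torus Lx Ly) (gb R 0) (hb R 0) (z - y, false) := by
  have e : z + ((1 : ZMod Lx), (0 : ZMod Ly)) - y = z - y + (1, 0) := by abel
  simp only [wgt, torus, gb, hb, sub_zero, Bool.false_eq_true, if_false, e]

omit [NeZero Ly] in
lemma wgt_hor {R : ℕ} (hR : 1 ≤ R) (hLx : 12 * R ≤ Lx) (z : ZMod Lx × ZMod Ly) :
    wgt (torus Lx Ly) (gb R 0) (hb R 0) (z, false) =
      -(chi R z * chi R (z + (1, 0))) / (2 * R) := by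
  have hR' : (1 : ℝ) ≤ R := by exact_mod_cast hR
  have hL' : 12 * (R : ℝ) ≤ Lx := by exact_mod_cast hLx
  simp only [wgt, torus, gb, hb, sub_zero, Bool.false_eq_true, if_false]
  by_cases h : chi R z = 0
  · simp [h]
  · have hd := (chi_lt h).1
    have e : ((z + (1, 0)).1.valMinAbs : ℝ) = z.1.valMinAbs + 1 := by
      rw [show (z + ((1 : ZMod Lx), (0 : ZMod Ly))).1 = z.1 + 1 by simp, vma_succ (by linarith)]
    rw [e]; ring

lemma sum_wgt {R : ℕ} (hR : 1 ≤ R) (hLx : 12 * R ≤ Lx) (hLy : 12 * R ≤ Ly) :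
    (∑ z, wgt (torus Lx Ly) (gb R 0) (hb R 0) (z, false)) ≤ -(R : ℝ) := by
  classical
  have hR' : (1 : ℝ) ≤ R := by exact_mod_cast hR
  set P : Finset (ℤ × ℤ) := Finset.Icc (-(R : ℤ)) (R - 1) ×ˢ Finset.Icc (-(R : ℤ)) R with hP
  set c : ℤ × ℤ → ZMod Lx × ZMod Ly := fun u => ((u.1 : ZMod Lx), (u.2 : ZMod Ly)) with hc
  have hinj : Set.InjOn c P := by
    intro u hu v hv e
    simp only [hP, Finset.coe_product, Finset.coe_Icc, Set.mem_prod, Set.mem_Icc] at hu hv
    simp only [hc, Prod.mk.injEq] at e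
    have bnd : ∀ w : ℤ, -(R : ℤ) ≤ w → w ≤ R → |w| ≤ R := fun w a b => abs_le.2 ⟨a, b⟩
    have a1 := bnd u.1 hu.1.1 (by omega)
    have a2 := bnd u.2 hu.2.1 hu.2.2
    have a3 := bnd v.1 hv.1.1 (by omega)
    have a4 := bnd v.2 hv.2.1 hv.2.2
    have f1 := congrArg ZMod.valMinAbs e.1
    have f2 := congrArg ZMod.valMinAbs e.2
    rw [vma_cast (by omega), vma_cast (by omega)] at f1 f2
    exact Prod.ext f1 f2
  have hone : ∀ z ∈ P.image c,
      wgt (torus Lx Ly) (gb R 0) (hb R 0) (z, false) = -1 / (2 * (R : ℝ)) := by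
    intro z hz
    obtain ⟨u, hu, rfl⟩ := Finset.mem_image.1 hz
    simp only [hP, Finset.mem_product, Finset.mem_Icc] at hu
    have key : ∀ {L : ℕ} [NeZero L] (w : ℤ), 12 * R ≤ L → -(R : ℤ) ≤ w → w ≤ R →
        cd (w : ZMod L) ≤ R := by
      intro L _ w hL a b
      have hw : |w| ≤ R := abs_le.2 ⟨a, b⟩
      rw [cd, vma_cast (by omega), ← Int.cast_abs]
      exact_mod_cast hw
    have k1 := key (L := Lx) u.1 hLx hu.1.1 (by omega)
    have k2 := key (L := Ly) u.2 hLy hu.2.1 hu.2.2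
    have k3 := key (L := Lx) (u.1 + 1) hLx (by omega) (by omega)
    have e1 : chi R (c u) = 1 := chi_eq_one hR k1 k2
    have e2 : chi R (c u + (1, 0)) = 1 :=
      chi_eq_one hR (by simpa [hc] using k3) (by simpa [hc] using k2)
    rw [wgt_hor hR hLx, e1, e2]; norm_num
  have hnp : ∀ z : ZMod Lx × ZMod Ly, wgt (torus Lx Ly) (gb R 0) (hb R 0) (z, false) ≤ 0 :=
    fun z => by
      rw [wgt_hor hR hLx, neg_div]
      have := div_nonneg (mul_nonneg (chi_nonneg R z) (chi_nonneg R (z + (1, 0))))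
        (by linarith : (0 : ℝ) ≤ 2 * R)
      linarith
  have hcard : ((P.image c).card : ℝ) = 2 * R * (2 * R + 1) := by
    rw [Finset.card_image_of_injOn hinj, hP, Finset.card_product, Int.card_Icc, Int.card_Icc]
    rw [show ((R : ℤ) - 1 + 1 - -(R : ℤ)).toNat = 2 * R by omega,
      show ((R : ℤ) + 1 - -(R : ℤ)).toNat = 2 * R + 1 by omega]
    push_cast; ring
  calc (∑ z, wgt (torus Lx Ly) (gb R 0) (hb R 0) (z, false))
      ≤ ∑ z, if z ∈ P.image c then -1 / (2 * (R : ℝ)) else 0 :=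
        Finset.sum_le_sum fun z _ => by
          split_ifs with hz
          · exact (hone z hz).le
          · exact hnp z
    _ = ((P.image c).card : ℝ) * (-1 / (2 * (R : ℝ))) := by
        rw [Finset.sum_ite_mem, Finset.univ_inter, Finset.sum_const, nsmul_eq_mul]
    _ ≤ -(R : ℝ) := by
        rw [hcard]; field_simp; nlinarith

lemma cut_facts {r R : ℕ} (hr : 1 ≤ r) (hrR : r ≤ R) (hLx : 12 * R ≤ Lx) (hLy : 12 * R ≤ Ly)
    (x y : ZMod Lx × ZMod Ly) (f : ZMod Lx × ZMod Ly → ℝ) (hf : f = gb R y ∨ f = hb R y) :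
    (∀ z, |cut r x f z| ≤ 24 * r / R) ∧ nrm (dd (torus Lx Ly) (cut r x f)) ≤ 500 * r / R ∧
      ∀ z ∈ sq r x, cut r x f z = f z - f x := by
  have hR : 1 ≤ R := hr.trans hrR
  have hr' : (1 : ℝ) ≤ r := by exact_mod_cast hr
  have hR' : (1 : ℝ) ≤ R := by exact_mod_cast hR
  have hlip := pot_bond hR hLx hLy hf
  have near : ∀ z, cd (z - x).1 ≤ 6 * r → cd (z - x).2 ≤ 6 * r → |f z - f x| ≤ 24 * r / R := by
    intro z a b
    refine (path_le hlip x z).trans ?_
    calc 2 / (R : ℝ) * (cd (z - x).1 + cd (z - x).2) ≤ 2 / (R : ℝ) * (12 * r) :=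
          mul_le_mul_of_nonneg_left (by linarith) (by positivity)
      _ = 24 * r / R := by ring
  have hne : ∀ z, chi (3 * r) (z - x) ≠ 0 → cd (z - x).1 < 6 * r ∧ cd (z - x).2 < 6 * r := by
    intro z hz
    have := chi_lt hz
    push_cast at this
    constructor <;> linarith [this.1, this.2]
  refine ⟨fun z => ?_, ?_, fun z hz => ?_⟩
  · unfold cut
    by_cases h : chi (3 * r) (z - x) = 0
    · simp [h]; positivity
    · rw [abs_mul, abs_of_nonneg (chi_nonneg _ _)]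
      exact (mul_le_of_le_one_right (abs_nonneg _) (chi_le_one _ _)).trans
        (near z (hne z h).1.le (hne z h).2.le)
  · have hx : 3 ≤ Lx := by omega
    have hy : 3 ≤ Ly := by omega
    refine (nrm_le (K := 12 / R) (by positivity) (N := 7 * r) (x := x) (fun b => ?_)
      fun b hb => ?_).trans ?_
    · rw [dd_eq, abs_sub_comm]
      unfold cut
      have hχ := chi_bond hx hy (3 * r) x b
      obtain ⟨c1, c2, c3, c4⟩ := cd_src_le hx hy x b
      have hl := hlip b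
      set p := f b.1 with hp
      set q := f (b.1 + step b) with hq
      set u := chi (3 * r) (b.1 - x) with hu
      set v := chi (3 * r) (b.1 + step b - x) with hv
      have hv0 := chi_nonneg (3 * r) (b.1 + step b - x)
      have hv1 := chi_le_one (3 * r) (b.1 + step b - x)
      rw [← hv] at hv0 hv1
      by_cases h : u = 0 ∧ v = 0
      · simp [h.1, h.2]; positivity
      · have hnear : cd (b.1 - x).1 ≤ 7 * r ∧ cd (b.1 - x).2 ≤ 7 * r := by
          by_cases h0 : u = 0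
          · have := hne _ (fun e => h ⟨h0, e⟩)
            constructor <;> linarith [this.1, this.2]
          · have := hne _ h0
            constructor <;> linarith [this.1, this.2]
        have hfx : |p - f x| ≤ 28 * r / R := by
          refine (path_le hlip x b.1).trans ?_
          calc 2 / (R : ℝ) * (cd (b.1 - x).1 + cd (b.1 - x).2) ≤ 2 / (R : ℝ) * (14 * r) :=
                mul_le_mul_of_nonneg_left (by linarith [hnear.1, hnear.2]) (by positivity)
            _ = 28 * r / R := by ring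
        have a1 : |(q - p) * v| ≤ 2 / R := by
          rw [abs_mul, abs_of_nonneg hv0]
          exact (mul_le_of_le_one_right (abs_nonneg _) hv1).trans hl
        have a2 : |(p - f x) * (v - u)| ≤ 10 / R := by
          rw [abs_mul]
          refine (mul_le_mul hfx hχ (abs_nonneg _) (by positivity)).trans ?_
          push_cast
          rw [div_mul_div_comm, div_le_div_iff₀ (by positivity) (by linarith)]
          nlinarith
        calc |(q - f x) * v - (p - f x) * u| = |(q - p) * v + (p - f x) * (v - u)| := by ring_nf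
          _ ≤ 2 / (R : ℝ) + 10 / R := (abs_add_le _ _).trans (add_le_add a1 a2)
          _ = 12 / R := by ring
    · obtain ⟨c1, c2, -, -⟩ := cd_src_le hx hy x b
      have h0 : chi (3 * r) (b.1 - x) ≠ 0 ∨ chi (3 * r) (b.1 + step b - x) ≠ 0 := by
        by_contra h
        rw [not_or, not_not, not_not] at h
        exact hb (by simp [dd_eq, cut, h.1, h.2])
      refine mem_box ?_ ?_ <;> push_cast <;> rcases h0 with h0 | h0 <;>
        linarith [(hne _ h0).1, (hne _ h0).2]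
    · push_cast
      rw [div_mul_eq_mul_div, div_le_div_iff_of_pos_right (by linarith)]
      linarith
  · have a := (cd_le_iff _ _).1 hz.1
    have b := (cd_le_iff _ _).1 hz.2
    rw [cut, chi_eq_one (by omega) a b, mul_one]

omit [NeZero Lx] [NeZero Ly] in
lemma cut_far {r R : ℕ} (hrR : r ≤ R) (x y : ZMod Lx × ZMod Ly)
    (hy : y ∉ box (8 * R) x) (f : ZMod Lx × ZMod Ly → ℝ) (hf : f = gb R y ∨ f = hb R y) :
    cut r x f = 0 := by
  have hrR' : (r : ℝ) ≤ R := by exact_mod_cast hrR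
  have r0 : (0 : ℝ) ≤ r := Nat.cast_nonneg r
  have hout : 8 * (R : ℝ) < cd (y - x).1 ∨ 8 * (R : ℝ) < cd (y - x).2 := by
    by_contra h
    rw [not_or, not_lt, not_lt] at h
    exact hy (mem_box (by push_cast; exact h.1) (by push_cast; exact h.2))
  have zero_at : ∀ z, cd (z - x).1 ≤ 6 * r → cd (z - x).2 ≤ 6 * r → f z = 0 := by
    intro z a b
    by_contra h
    obtain ⟨u, v⟩ := cd_of_pot_ne hf h
    have t1 := cd_add_le ((y - z).1) ((z - x).1)
    have t2 := cd_add_le ((y - z).2) ((z - x).2)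
    rw [← Prod.fst_add, sub_add_sub_cancel] at t1
    rw [← Prod.snd_add, sub_add_sub_cancel] at t2
    rw [Prod.fst_sub y z, cd_sub_comm, ← Prod.fst_sub] at t1
    rw [Prod.snd_sub y z, cd_sub_comm, ← Prod.snd_sub] at t2
    rcases hout with h' | h' <;> linarith
  have hx0 : f x = 0 := zero_at x (by simp [cd_zero]) (by simp [cd_zero])
  funext z
  unfold cut
  by_cases h : chi (3 * r) (z - x) = 0
  · simp [h]
  · have := chi_lt h
    push_cast at this
    simp [hx0, zero_at z (by linarith [this.1]) (by linarith [this.2])]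

/-- The facts about the bumps hold. -/
theorem geo_stmt : GeoStmt := by
  intro Lx Ly _ _ r R hr hrR hLx hLy
  have hR : 1 ≤ R := hr.trans hrR
  refine ⟨fun x b hb => ?_, fun x => ⟨nrm_dd_pot hr (by omega) (by omega) (Or.inl rfl),
      nrm_dd_pot hr (by omega) (by omega) (Or.inr rfl)⟩, wgt_vert R, wgt_shift R,
    sum_wgt hR hLx hLy, cut_facts hr hrR hLx hLy, fun x => ⟨box (8 * R) x, ?_,
      fun y hy => ⟨cut_far hrR x y hy _ (Or.inl rfl), cut_far hrR x y hy _ (Or.inr rfl)⟩⟩⟩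
  · have hx : 3 ≤ Lx := by omega
    have hy : 3 ≤ Ly := by omega
    rcases hb with hb | hb
    · obtain ⟨a, b', c, d⟩ := supp_dd hr hx hy (Or.inl rfl) hb
      rw [src_eq, tgt_eq]
      exact ⟨⟨(cd_le_iff _ _).2 a, (cd_le_iff _ _).2 b'⟩,
        ⟨(cd_le_iff _ _).2 c, (cd_le_iff _ _).2 d⟩⟩
    · obtain ⟨a, b', c, d⟩ := supp_dd hr hx hy (Or.inr rfl) hb
      rw [src_eq, tgt_eq]
      exact ⟨⟨(cd_le_iff _ _).2 a, (cd_le_iff _ _).2 b'⟩,
        ⟨(cd_le_iff _ _).2 c, (cd_le_iff _ _).2 d⟩⟩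
  · have hR' : (1 : ℝ) ≤ R := by exact_mod_cast hR
    refine (card_box (8 * R) x).trans ?_
    push_cast; nlinarith

end Vale.Agent.P163.Helicity.Geo
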