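import Vale.Agent.P163.Helicity.Spec

/-!
Positivity of the gauge partition function: it is a nonnegative combination of cosines.
-/

noncomputable section

namespace Vale.Agent.P163.Helicity

open MeasureTheory Metric
open scoped RealInnerProductSpace ComplexConjugate

variable {n : ℕ} {V ι : Type*} [Fintype V] [Fintype ι]

/-- The functions dominated in the manner of a nonnegative combination of cosines. -/
def Good (P : ℝ → ℝ) : Prop :=
  ∀ t, P t ≤ P 0 ∧ ∀ m : ℕ, 1 ≤ m → P 0 - P t ≤ (m : ℝ) ^ 2 * (P 0 - P (t / m))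

lemma abs_sin_nat_mul_le (m : ℕ) (y : ℝ) : |Real.sin (m * y)| ≤ m * |Real.sin y| := by
  induction m with
  | zero => simp
  | succ m ih =>
    rw [Nat.cast_succ, add_mul, one_mul, Real.sin_add, add_mul, one_mul]
    refine (abs_add_le _ _).trans (add_le_add ?_ ?_)
    · rw [abs_mul]
      exact (mul_le_of_le_one_right (abs_nonneg _) (Real.abs_cos_le_one _)).trans ih
    · rw [abs_mul]
      exact mul_le_of_le_one_left (abs_nonneg _) (Real.abs_cos_le_one _)

lemma good_cos {c : ℝ} (hc : 0 ≤ c) (w : ℝ) : Good fun t => c * Real.cos (w * t) := by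
  intro t
  refine ⟨?_, fun m hm => ?_⟩
  · simpa using mul_le_mul_of_nonneg_left (Real.cos_le_one (w * t)) hc
  · have hm0 : (m : ℝ) ≠ 0 := by positivity
    set y := w * (t / m) / 2 with hy
    have e1 : w * t = 2 * ((m : ℝ) * y) := by rw [hy]; field_simp
    have e2 : w * (t / m) = 2 * y := by rw [hy]; ring
    have hs := pow_le_pow_left₀ (abs_nonneg _) (abs_sin_nat_mul_le m y) 2
    rw [mul_pow, sq_abs, sq_abs] at hs
    simp only [mul_zero, Real.cos_zero, e1, e2, Real.cos_two_mul, Real.cos_sq']
    linarith [mul_le_mul_of_nonneg_left hs hc]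

lemma good_zero : Good fun _ => 0 := fun _ => ⟨le_rfl, fun _ _ => by simp⟩

lemma Good.add {P Q : ℝ → ℝ} (hP : Good P) (hQ : Good Q) : Good fun t => P t + Q t := fun t =>
  ⟨add_le_add (hP t).1 (hQ t).1, fun m hm => by
    dsimp only
    linarith [(hP t).2 m hm, (hQ t).2 m hm]⟩

lemma Good.hasSum {κ : Type*} {P : κ → ℝ → ℝ} {Q : ℝ → ℝ} (hP : ∀ k, Good (P k))
    (hQ : ∀ t, HasSum (fun k => P k t) (Q t)) : Good Q := fun t =>
  ⟨hasSum_le (fun k => (hP k t).1) (hQ t) (hQ 0), fun m hm =>
    hasSum_le (fun k => (hP k t).2 m hm) ((hQ 0).sub (hQ t))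
      (((hQ 0).sub (hQ (t / m))).mul_left _)⟩

variable (i j : Fin n)

/-- The coordinates outside the plane. -/
def others : Finset (Fin n) := Finset.univ.filter fun a => a ≠ i ∧ a ≠ j

/-- The planar component as a complex number. -/
def zc (v : Spin n) : ℂ := ((v : Euc n) i : ℂ) + Complex.I * ((v : Euc n) j : ℂ)

/-- A monomial at one site. -/
def mono (p q : ℕ) (m : Fin n → ℕ) (v : Spin n) : ℂ :=
  zc i j v ^ p * conj (zc i j v) ^ q * ((∏ a ∈ others i j, (v : Euc n) a ^ m a : ℝ) : ℂ)

lemma mono_mul (p q p' q' : ℕ) (m m' : Fin n → ℕ) (v : Spin n) :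
    mono i j (p + p') (q + q') (m + m') v = mono i j p q m v * mono i j p' q' m' v := by
  simp only [mono, pow_add, Pi.add_apply, Finset.prod_mul_distrib]
  push_cast
  ring

lemma mono_zero (v : Spin n) : mono i j 0 0 0 v = 1 := by simp [mono]

lemma continuous_coord (a : Fin n) : Continuous fun v : Spin n => (v : Euc n) a :=
  (PiLp.continuous_apply 2 _ a).comp continuous_subtype_val

lemma continuous_mono (p q : ℕ) (m : Fin n → ℕ) : Continuous (mono i j p q m) := by
  have hc : ∀ a : Fin n, Continuous fun v : Spin n => (v : Euc n) a := continuous_coord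
  unfold mono zc
  fun_prop

variable {i j}

lemma rotFun_apply {a b : Fin n} (h : a ≠ b) (θ : ℝ) (v : Euc n) (c : Fin n) :
    (pl h).rotFun θ v c = v c +
      (if c = a then (Real.cos θ - 1) * v a - Real.sin θ * v b else 0) +
      (if c = b then (Real.cos θ - 1) * v b + Real.sin θ * v a else 0) := by
  simp only [Plane.rotFun, pl, EuclideanSpace.inner_single_left, map_one, one_mul,
    PiLp.add_apply, PiLp.smul_apply, PiLp.single_apply, smul_eq_mul]
  split_ifs <;> ring

/-- A function changing sign under a rotation of the sphere has integral zero. -/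
lemma integral_eq_zero_of_rot [NeZero n] {f : Spin n → ℂ} (hf : Continuous f) (P : Plane n)
    (θ : ℝ) (h : ∀ v, f (sphereMap (P.rot θ) v) = -f v) : ∫ v, f v ∂sphereUnif n = 0 := by
  have e : ∫ v, f v ∂sphereUnif n = ∫ v, f (sphereMap (P.rot θ) v) ∂sphereUnif n := by
    conv_lhs => rw [← map_sphereUnif (P.rot θ)]
    exact integral_map (continuous_sphereMap _).measurable.aemeasurable hf.aestronglyMeasurable
  simp only [h, integral_neg] at e
  linear_combination e / 2

/-- The moments of the uniform law of the sphere are nonnegative. -/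
lemma mono_moment [NeZero n] (hij : i ≠ j) (p q : ℕ) (m : Fin n → ℕ) :
    ∃ r : ℝ, 0 ≤ r ∧ ∫ v, mono i j p q m v ∂sphereUnif n = r := by
  by_cases hpq : p = q
  · subst hpq
    have hre : ∀ v : Spin n, mono i j p p m v =
        ((((v : Euc n) i ^ 2 + (v : Euc n) j ^ 2) ^ p *
          ∏ a ∈ others i j, (v : Euc n) a ^ m a : ℝ) : ℂ) := by
      intro v
      have e : zc i j v * conj (zc i j v) = (((v : Euc n) i ^ 2 + (v : Euc n) j ^ 2 : ℝ) : ℂ) := by
        rw [Complex.mul_conj]
        congr 1
        simp [zc, Complex.normSq_apply]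
        ring
      rw [mono, ← mul_pow, e]
      push_cast
      ring
    by_cases hodd : ∀ a ∈ others i j, Even (m a)
    · refine ⟨∫ v : Spin n, ((v : Euc n) i ^ 2 + (v : Euc n) j ^ 2) ^ p *
          ∏ a ∈ others i j, (v : Euc n) a ^ m a ∂sphereUnif n, integral_nonneg fun v => ?_, ?_⟩
      · exact mul_nonneg (by positivity) (Finset.prod_nonneg fun a ha => (hodd a ha).pow_nonneg _)
      · simp only [hre]
        exact integral_ofReal
    · push Not at hodd
      obtain ⟨a, ha, hao⟩ := hodd
      obtain ⟨hai, haj⟩ : a ≠ i ∧ a ≠ j := by simpa [others] using ha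
      refine ⟨0, le_rfl, ?_⟩
      rw [Complex.ofReal_zero]
      refine integral_eq_zero_of_rot (continuous_mono i j p p m) (pl hai) Real.pi fun v => ?_
      rw [hre, hre, ← Complex.ofReal_neg]
      congr 1
      have hA : ∀ c, (sphereMap ((pl hai).rot Real.pi) v : Euc n) c =
          if c = a ∨ c = i then -(v : Euc n) c else (v : Euc n) c := by
        intro c
        show (pl hai).rotFun Real.pi (v : Euc n) c = _
        rw [rotFun_apply hai, Real.cos_pi, Real.sin_pi]
        by_cases h1 : c = a
        · subst h1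
          simp [hai]
          ring
        · by_cases h2 : c = i
          · subst h2
            simp [h1]
            ring
          · simp [h1, h2]
      rw [hA i, hA j, ← Finset.mul_prod_erase _ _ ha, ← Finset.mul_prod_erase _ _ ha, hA a]
      have hrest : ∏ c ∈ (others i j).erase a, (sphereMap ((pl hai).rot Real.pi) v : Euc n) c ^ m c =
          ∏ c ∈ (others i j).erase a, (v : Euc n) c ^ m c := by
        refine Finset.prod_congr rfl fun c hc => ?_
        obtain ⟨hca, hc'⟩ := Finset.mem_erase.1 hc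
        have hci : c ≠ i := ((Finset.mem_filter.1 hc').2).1
        rw [hA c, if_neg (by simp [hca, hci])]
      rw [hrest, if_pos (Or.inr rfl), if_neg (by simp [haj.symm, hij.symm]), if_pos (Or.inl rfl),
        neg_sq, (Nat.not_even_iff_odd.1 hao).neg_pow]
      ring
  · refine ⟨0, le_rfl, ?_⟩
    rw [Complex.ofReal_zero]
    set θ := Real.pi / ((p : ℝ) - q) with hθ
    have hd : (p : ℝ) - q ≠ 0 := sub_ne_zero.2 (by exact_mod_cast hpq)
    refine integral_eq_zero_of_rot (continuous_mono i j p q m) (pl hij) θ fun v => ?_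
    have hA : ∀ c, (sphereMap ((pl hij).rot θ) v : Euc n) c = (v : Euc n) c +
        (if c = i then (Real.cos θ - 1) * (v : Euc n) i - Real.sin θ * (v : Euc n) j else 0) +
        (if c = j then (Real.cos θ - 1) * (v : Euc n) j + Real.sin θ * (v : Euc n) i else 0) :=
      fun c => rotFun_apply hij θ (v : Euc n) c
    have hz : zc i j (sphereMap ((pl hij).rot θ) v) = Complex.exp (θ * Complex.I) * zc i j v := by
      simp only [zc, hA, if_true, if_neg hij, if_neg hij.symm, Complex.exp_mul_I]
      push_cast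
      linear_combination -(Complex.sin (θ : ℂ) * (((v : Euc n) j : ℝ) : ℂ)) * Complex.I_sq
    have hr : ∏ c ∈ others i j, (sphereMap ((pl hij).rot θ) v : Euc n) c ^ m c =
        ∏ c ∈ others i j, (v : Euc n) c ^ m c := by
      refine Finset.prod_congr rfl fun c hc => ?_
      obtain ⟨hci, hcj⟩ := (Finset.mem_filter.1 hc).2
      rw [hA c, if_neg hci, if_neg hcj, add_zero, add_zero]
    have hphase : Complex.exp (θ * Complex.I) ^ p * Complex.exp (-(θ * Complex.I)) ^ q = -1 := by
      rw [← Complex.exp_nat_mul, ← Complex.exp_nat_mul, ← Complex.exp_add, ← Complex.exp_pi_mul_I]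
      congr 1
      have : (((p : ℝ) - q : ℝ) : ℂ) * (θ : ℂ) = (Real.pi : ℂ) := by
        rw [← Complex.ofReal_mul, hθ, mul_div_cancel₀ _ hd]
      push_cast at this
      linear_combination Complex.I * this
    have hconj : conj (Complex.exp (θ * Complex.I)) = Complex.exp (-(θ * Complex.I)) := by
      rw [← Complex.exp_conj]
      simp
    simp only [mono, hz, hr, map_mul, mul_pow, hconj]
    linear_combination (zc i j v ^ p * conj (zc i j v) ^ q *
      ((∏ c ∈ others i j, (v : Euc n) c ^ m c : ℝ) : ℂ)) * hphase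

variable (i j)

/-- A weighted phase times a monomial on the graph, with a nonnegative weight. -/
def IsMono (F : ℝ → (V → Spin n) → ℂ) : Prop :=
  ∃ c : ℝ, 0 ≤ c ∧ ∃ (w : ℝ) (p q : V → ℕ) (m : V → Fin n → ℕ), ∀ t σ,
    F t σ = (c : ℂ) * Complex.exp (((w * t : ℝ) : ℂ) * Complex.I) *
      ∏ x, mono i j (p x) (q x) (m x) (σ x)

/-- The weighted monomials, as a monoid. -/
def monos : Submonoid (ℝ → (V → Spin n) → ℂ) where
  carrier := {F | IsMono i j F}
  one_mem' := ⟨1, zero_le_one, 0, 0, 0, 0, fun t σ => by simp [mono_zero]⟩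
  mul_mem' := by
    rintro F K ⟨c, hc, w, p, q, m, hF⟩ ⟨c', hc', w', p', q', m', hK⟩
    refine ⟨c * c', mul_nonneg hc hc', w + w', p + p', q + q', m + m', fun t σ => ?_⟩
    simp only [Pi.mul_apply, hF, hK, Pi.add_apply, mono_mul, Finset.prod_mul_distrib]
    push_cast
    rw [add_mul, add_mul, Complex.exp_add]
    ring

/-- The cone of nonnegative combinations of weighted monomials. -/
def cone : Subsemiring (ℝ → (V → Spin n) → ℂ) :=
  Subsemiring.closure (monos (V := V) i j : Set (ℝ → (V → Spin n) → ℂ))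

lemma phase_mem {c : ℝ} (hc : 0 ≤ c) (w : ℝ) :
    (fun t _ => (c : ℂ) * Complex.exp (((w * t : ℝ) : ℂ) * Complex.I)) ∈ cone (V := V) i j :=
  Subsemiring.subset_closure ⟨c, hc, w, 0, 0, 0, fun t σ => by simp [mono_zero]⟩

lemma site_mem (u : V) (p q : ℕ) (m : Fin n → ℕ) :
    (fun (_ : ℝ) (σ : V → Spin n) => mono i j p q m (σ u)) ∈ cone i j := by
  classical
  refine Subsemiring.subset_closure ⟨1, zero_le_one, 0, Pi.single u p, Pi.single u q,
    Pi.single u m, fun t σ => ?_⟩
  rw [Fintype.prod_eq_single u fun x hx => by simp [hx, mono_zero]]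
  simp

lemma bond_eq (x y x' y' θ : ℝ) :
    ((x * x' + y * y' + (Real.cos θ - 1) * (x * x' + y * y') +
        Real.sin θ * (x * y' - y * x') : ℝ) : ℂ) =
      ((1 / 2 : ℝ) : ℂ) * Complex.exp (((-θ : ℝ) : ℂ) * Complex.I) *
          (conj ((x : ℂ) + Complex.I * (y : ℂ)) * ((x' : ℂ) + Complex.I * (y' : ℂ))) +
        ((1 / 2 : ℝ) : ℂ) * Complex.exp ((θ : ℂ) * Complex.I) *
          (((x : ℂ) + Complex.I * (y : ℂ)) * conj ((x' : ℂ) + Complex.I * (y' : ℂ))) := by
  simp only [map_add, map_mul, Complex.conj_ofReal, Complex.conj_I, Complex.exp_mul_I]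
  push_cast
  simp only [Complex.cos_neg, Complex.sin_neg]
  linear_combination (Complex.cos (θ : ℂ) * ((y : ℂ) * (y' : ℂ)) +
    Complex.sin (θ : ℂ) * ((x : ℂ) * (y' : ℂ) - (y : ℂ) * (x' : ℂ))) * Complex.I_sq

lemma enT_mem (G : Graph V ι) (hij : i ≠ j) (A : ι → ℝ) :
    (fun t (σ : V → Spin n) => ((enT G i j A t σ : ℝ) : ℂ)) ∈ cone i j := by
  classical
  have key : (fun t (σ : V → Spin n) => ((enT G i j A t σ : ℝ) : ℂ)) =
      ∑ b, ((∑ a ∈ others i j, ((fun _ σ => mono i j 0 0 (Pi.single a 1) (σ (G.src b))) *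
          (fun (_ : ℝ) σ => mono i j 0 0 (Pi.single a 1) (σ (G.tgt b))))) +
        (fun t _ => ((1 / 2 : ℝ) : ℂ) * Complex.exp (((-A b * t : ℝ) : ℂ) * Complex.I)) *
          ((fun _ σ => mono i j 0 1 0 (σ (G.src b))) *
            (fun (_ : ℝ) σ => mono i j 1 0 0 (σ (G.tgt b)))) +
        (fun t _ => ((1 / 2 : ℝ) : ℂ) * Complex.exp (((A b * t : ℝ) : ℂ) * Complex.I)) *
          ((fun _ σ => mono i j 1 0 0 (σ (G.src b))) *
            (fun (_ : ℝ) σ => mono i j 0 1 0 (σ (G.tgt b))))) := by
    funext t σ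
    simp only [enT, en, pen, cur, inner_eq_sum, Finset.sum_apply, Pi.add_apply, Pi.mul_apply,
      ← Finset.sum_add_distrib, Complex.ofReal_sum]
    refine Finset.sum_congr rfl fun b _ => ?_
    have hsplit : ∀ f : Fin n → ℝ, ∑ a, f a = (∑ a ∈ others i j, f a) + (f i + f j) := by
      intro f
      rw [← Finset.sum_filter_add_sum_filter_not Finset.univ (fun a => a ≠ i ∧ a ≠ j),
        ← Finset.sum_pair hij]
      refine congrArg₂ (· + ·) rfl (Finset.sum_congr ?_ fun _ _ => rfl)
      ext a
      simp only [Finset.mem_filter, Finset.mem_univ, true_and, Finset.mem_insert,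
        Finset.mem_singleton]
      tauto
    have hone : ∀ (a : Fin n), a ∈ others i j → ∀ v : Spin n,
        mono i j 0 0 (Pi.single a 1) v = ((v : Euc n) a : ℂ) := by
      intro a ha v
      rw [mono, Finset.prod_eq_single_of_mem a ha fun c _ hc => by simp [hc]]
      simp
    have hz1 : ∀ v : Spin n, mono i j 1 0 0 v = zc i j v := fun v => by simp [mono]
    have hz2 : ∀ v : Spin n, mono i j 0 1 0 v = conj (zc i j v) := fun v => by simp [mono]
    have hsum : ∑ a ∈ others i j, mono i j 0 0 (Pi.single a 1) (σ (G.src b)) *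
        mono i j 0 0 (Pi.single a 1) (σ (G.tgt b)) =
        ((∑ a ∈ others i j, (σ (G.src b) : Euc n) a * (σ (G.tgt b) : Euc n) a : ℝ) : ℂ) := by
      rw [Complex.ofReal_sum]
      exact Finset.sum_congr rfl fun a ha => by rw [hone a ha, hone a ha, Complex.ofReal_mul]
    rw [hsplit, hsum, hz1, hz1, hz2, hz2, neg_mul, add_assoc (_ : ℂ)]
    simp only [co, zc, mul_comm t (A b)]
    rw [← bond_eq]
    push_cast
    ring
  rw [key]
  refine sum_mem fun b _ => add_mem (add_mem (sum_mem fun a _ => mul_mem ?_ ?_)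
    (mul_mem (phase_mem i j (by norm_num) _) (mul_mem ?_ ?_)))
    (mul_mem (phase_mem i j (by norm_num) _) (mul_mem ?_ ?_)) <;> exact site_mem i j _ _ _ _

/-- Integrals of the cone are nonnegative combinations of cosines. -/
lemma cone_good [NeZero n] (hij : i ≠ j) {F : ℝ → (V → Spin n) → ℂ} (hF : F ∈ cone i j) :
    (∀ t, Continuous (F t)) ∧ Good fun t => (∫ σ, F t σ ∂freeLaw V n).re := by
  rw [cone, Subsemiring.mem_closure_iff, Submonoid.closure_eq] at hF
  induction hF using AddSubmonoid.closure_induction with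
  | mem F hF =>
    obtain ⟨c, hc, w, p, q, m, hF⟩ := hF
    have hFe : F = fun t σ => (c : ℂ) * Complex.exp (((w * t : ℝ) : ℂ) * Complex.I) *
        ∏ x, mono i j (p x) (q x) (m x) (σ x) := funext fun t => funext fun σ => hF t σ
    subst hFe
    refine ⟨fun t => ?_, ?_⟩
    · exact continuous_const.mul (continuous_finsetProd _ fun x _ =>
        (continuous_mono i j (p x) (q x) (m x)).comp (continuous_apply x))
    choose r hr0 hr using fun x : V => mono_moment hij (p x) (q x) (m x)
    have e : ∀ t, (∫ σ, (c : ℂ) * Complex.exp (((w * t : ℝ) : ℂ) * Complex.I) *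
        ∏ x, mono i j (p x) (q x) (m x) (σ x) ∂freeLaw V n).re =
        c * (∏ x, r x) * Real.cos (w * t) := by
      intro t
      rw [integral_const_mul, freeLaw,
        integral_fintype_prod_eq_prod (fun x v => mono i j (p x) (q x) (m x) v)]
      simp only [hr, ← Complex.ofReal_prod, Complex.mul_re, Complex.mul_im, Complex.ofReal_re,
        Complex.ofReal_im, Complex.exp_ofReal_mul_I_re, Complex.exp_ofReal_mul_I_im]
      ring
    simp only [e]
    exact good_cos (mul_nonneg hc (Finset.prod_nonneg fun x _ => hr0 x)) w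
  | zero => exact ⟨fun t => continuous_const, by simpa using good_zero⟩
  | add F K _ _ ihF ihK =>
    refine ⟨fun t => (ihF.1 t).add (ihK.1 t), ?_⟩
    have e : ∀ t, (∫ σ, (F + K) t σ ∂freeLaw V n).re =
        (∫ σ, F t σ ∂freeLaw V n).re + (∫ σ, K t σ ∂freeLaw V n).re := fun t => by
      simp only [Pi.add_apply]
      rw [integral_add (integ (ihF.1 t)) (integ (ihK.1 t)), Complex.add_re]
    simp only [e]
    exact ihF.2.add ihK.2

lemma continuous_enT (G : Graph V ι) (A : ι → ℝ) (t : ℝ) :
    Continuous (enT (n := n) G i j A t) := by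
  have hc : ∀ (a : Fin n) (x : V), Continuous (co (n := n) a x) := continuous_co
  unfold enT pen cur
  fun_prop

lemma good_power [NeZero n] (G : Graph V ι) (hij : i ≠ j) (A : ι → ℝ) {β : ℝ} (hβ : 0 ≤ β)
    (k : ℕ) : Good fun t =>
      ∫ σ : V → Spin n, β ^ k / (k.factorial : ℝ) * enT G i j A t σ ^ k ∂freeLaw V n := by
  have hm : (fun t (σ : V → Spin n) =>
      ((β ^ k / (k.factorial : ℝ) * enT G i j A t σ ^ k : ℝ) : ℂ)) ∈ cone i j := by
    have h := mul_mem (phase_mem (V := V) i j (c := β ^ k / (k.factorial : ℝ)) (by positivity) 0)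
      (pow_mem (enT_mem i j G hij A) k)
    convert h using 1
    funext t σ
    simp
  have h := (cone_good i j hij hm).2
  simpa only [integral_complex_ofReal, Complex.ofReal_re] using h

/-- The gauge partition function is dominated as a nonnegative combination of cosines. -/
theorem zA_good [NeZero n] (G : Graph V ι) (hij : i ≠ j) (A : ι → ℝ) {β : ℝ} (hβ : 0 ≤ β) :
    Good (zA G β i j A) := by
  refine Good.hasSum (good_power i j G hij A hβ) fun t => ?_
  obtain ⟨B, hB⟩ := isCompact_univ.exists_bound_of_continuousOn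
    (continuous_enT i j G A t).continuousOn
  refine hasSum_integral_of_dominated_convergence (fun k _ => (β * B) ^ k / (k.factorial : ℝ))
    (fun k => (continuous_const.mul ((continuous_enT i j G A t).pow k)).aestronglyMeasurable)
    (fun k => Filter.Eventually.of_forall fun σ => ?_)
    (Filter.Eventually.of_forall fun _ => Real.summable_pow_div_factorial _)
    (integrable_const _) (Filter.Eventually.of_forall fun σ => ?_)
  · rw [norm_mul, norm_div, norm_pow, norm_pow, Real.norm_natCast, Real.norm_of_nonneg hβ,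
      mul_pow, div_mul_eq_mul_div]
    gcongr
    exact hB σ (Set.mem_univ σ)
  · have h := NormedSpace.expSeries_div_hasSum_exp (β * enT G i j A t σ)
    rw [← Real.exp_eq_exp_ℝ] at h
    simpa only [mul_pow, div_mul_eq_mul_div] using h

/-- Positivity of the gauge partition function. -/
theorem pos_stmt : PosStmt :=
  fun _ _ _ _ _ _ G _ hβ i j hij A t => zA_good i j G hij A hβ t

end Vale.Agent.P163.Helicity
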