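import Vale.Agent.P163.Helicity.Spec

/-!
Translation invariance of the form on the torus.
-/

noncomputable section

namespace Vale.Agent.P163.Helicity

variable {n : ℕ} {Lx Ly : ℕ} [NeZero Lx] [NeZero Ly]

/-- The product of components `a`, `a'` at the ends of a bond. -/
def bondMul (a a' : Fin n) (b : (ZMod Lx × ZMod Ly) × Bool)
    (σ : ZMod Lx × ZMod Ly → Spin n) : ℝ :=
  co a ((torus Lx Ly).src b) σ * co a' ((torus Lx Ly).tgt b) σ

lemma continuous_bondMul (a a' : Fin n) (b : (ZMod Lx × ZMod Ly) × Bool) :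
    Continuous (bondMul a a' b) :=
  (continuous_co a _).mul (continuous_co a' _)

lemma continuous_cur_torus (i j : Fin n) (A : (ZMod Lx × ZMod Ly) × Bool → ℝ) :
    Continuous (cur (torus Lx Ly) i j A) := by
  have := continuous_co (n := n) (V := ZMod Lx × ZMod Ly)
  unfold cur; fun_prop

/-- Translation of the bonds. -/
def bondShift (c : ZMod Lx × ZMod Ly) :
    ((ZMod Lx × ZMod Ly) × Bool) ≃ ((ZMod Lx × ZMod Ly) × Bool) :=
  (Equiv.addRight c).prodCongr (Equiv.refl Bool)

lemma av_shift [NeZero n] (β : ℝ) (c : ZMod Lx × ZMod Ly) {F : (ZMod Lx × ZMod Ly → Spin n) → ℝ}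
    (hF : Continuous F) :
    av (torus Lx Ly) β (fun σ => F fun x => σ (x + c)) = av (torus Lx Ly) β F :=
  av_comp (G := torus Lx Ly) (Equiv.addRight c) (bondShift c) (fun _ => rfl)
    (fun b => by simp [torus, bondShift]; abel) β hF

omit [NeZero Lx] [NeZero Ly] in
lemma bondMul_shift (a a' : Fin n) (z c : ZMod Lx × ZMod Ly) (σ : ZMod Lx × ZMod Ly → Spin n) :
    bondMul a a' (z, false) (fun x => σ (x + c)) = bondMul a a' (z + c, false) σ := by
  simp only [bondMul, co, torus, Bool.false_eq_true, if_false]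
  rw [add_right_comm]

lemma cur_hor_shift (i j : Fin n) (c : ZMod Lx × ZMod Ly) (σ : ZMod Lx × ZMod Ly → Spin n) :
    cur (torus Lx Ly) i j hor (fun x => σ (x + c)) = cur (torus Lx Ly) i j hor σ := by
  unfold cur
  refine Fintype.sum_equiv (bondShift c) _ _ fun b => ?_
  have e : ∀ s : ZMod Lx × ZMod Ly, b.1 + s + c = b.1 + c + s := fun s => by abel
  simp only [co, torus, bondShift, hor, Equiv.prodCongr_apply, Prod.map, Equiv.coe_addRight,
    Equiv.refl_apply, e]

/-- The value of the form at a single horizontal bond. -/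
def bondForm (β : ℝ) (i j : Fin n) (z : ZMod Lx × ZMod Ly) : ℝ :=
  β * av (torus Lx Ly) β (fun σ => bondMul i i (z, false) σ + bondMul j j (z, false) σ) -
    β ^ 2 * av (torus Lx Ly) β (fun σ => cur (torus Lx Ly) i j hor σ *
      (bondMul i j (z, false) σ - bondMul j i (z, false) σ))

lemma bondForm_eq [NeZero n] (β : ℝ) (i j : Fin n) (z : ZMod Lx × ZMod Ly) :
    bondForm β i j z = bondForm (Lx := Lx) (Ly := Ly) β i j 0 := by
  have hm := continuous_bondMul (n := n) (Lx := Lx) (Ly := Ly)
  have hc := continuous_cur_torus (n := n) (Lx := Lx) (Ly := Ly) i j hor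
  have h1 := av_shift (n := n) β z
    (F := fun σ => bondMul i i ((0 : ZMod Lx × ZMod Ly), false) σ + bondMul j j (0, false) σ)
    ((hm i i _).add (hm j j _))
  have h2 := av_shift (n := n) β z
    (F := fun σ => cur (torus Lx Ly) i j hor σ *
      (bondMul i j ((0 : ZMod Lx × ZMod Ly), false) σ - bondMul j i (0, false) σ))
    (hc.mul ((hm i j _).sub (hm j i _)))
  simp only [bondMul_shift, cur_hor_shift, zero_add] at h1 h2
  rw [bondForm, bondForm, h1, h2]

lemma form_hor [NeZero n] (β : ℝ) (i j : Fin n) (w : (ZMod Lx × ZMod Ly) × Bool → ℝ)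
    (hw : ∀ z, w (z, true) = 0) :
    form (torus Lx Ly) β i j hor w =
      (∑ z, w (z, false)) * bondForm (Lx := Lx) (Ly := Ly) β i j 0 := by
  have hm := continuous_bondMul (n := n) (Lx := Lx) (Ly := Ly)
  have hc := continuous_cur_torus (n := n) (Lx := Lx) (Ly := Ly) i j hor
  have e1 : pen (n := n) (torus Lx Ly) i j (fun b => hor b * w b) = fun σ => ∑ z,
      w (z, false) * (bondMul i i (z, false) σ + bondMul j j (z, false) σ) := by
    funext σ
    simp [pen, Fintype.sum_prod_type, hor, bondMul]
  have e2 : (fun σ => cur (n := n) (torus Lx Ly) i j hor σ * cur (torus Lx Ly) i j w σ) =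
      fun σ => ∑ z, w (z, false) * (cur (torus Lx Ly) i j hor σ *
        (bondMul i j (z, false) σ - bondMul j i (z, false) σ)) := by
    funext σ
    conv_lhs => arg 2; rw [cur]
    simp only [Fintype.sum_prod_type, Fintype.sum_bool, hw, zero_mul, zero_add, bondMul,
      Finset.mul_sum]
    exact Finset.sum_congr rfl fun z _ => by ring_nf
  rw [form, e1, e2,
    av_sum (f := fun z σ => w (z, false) * (bondMul i i (z, false) σ + bondMul j j (z, false) σ))
      _ (fun z _ => continuous_const.mul ((hm i i _).add (hm j j _))),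
    av_sum (f := fun z σ => w (z, false) * (cur (torus Lx Ly) i j hor σ *
        (bondMul i j (z, false) σ - bondMul j i (z, false) σ)))
      _ (fun z _ => continuous_const.mul (hc.mul ((hm i j _).sub (hm j i _))))]
  simp only [av_const_mul, Finset.mul_sum, ← Finset.sum_sub_distrib, Finset.sum_mul]
  refine Finset.sum_congr rfl fun z _ => ?_
  rw [← bondForm_eq β i j z, bondForm]
  ring

/-- The form is translation invariant. -/
theorem trans_stmt : TransStmt := by
  intro n Lx Ly _ _ _ β i j w hw
  rw [form_hor β i j w hw, form_hor β i j hor (fun z => by simp [hor])]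
  simp [hor, Fintype.card_prod, ZMod.card]
  ring

end Vale.Agent.P163.Helicity
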