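import Vale.Agent.P163.Helicity.Positivity
import Vale.Agent.P163.Helicity.Bound
import Vale.Agent.P163.Helicity.Dia
import Vale.Agent.P163.Helicity.Geometry
import Vale.Agent.P163.Helicity.Trans

/-!
Many scales: packets at separated scales bound the helicity modulus by the inverse logarithm of
the period.
-/

noncomputable section

namespace Vale.Agent.P163.Helicity

open MeasureTheory Metric
open scoped RealInnerProductSpace

variable {n : ℕ} [NeZero n] {V ι : Type} [Fintype V] [Fintype ι]

/-- The derivative term only sees the potentials near the support of the packet. -/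
lemma local_term_le (G : Graph V ι) {β : ℝ} (hβ : 0 < β) {i j k : Fin n} (hij : i ≠ j) (hik : i ≠ k)
    (hjk : j ≠ k) (g h g' h' gc hc : V → ℝ) {S : Set V} (c d : ℝ)
    (hS : ∀ b, dd G g' b ≠ 0 ∨ dd G h' b ≠ 0 → G.src b ∈ S ∧ G.tgt b ∈ S)
    (hgc : ∀ z ∈ S, gc z = g z - c) (hhc : ∀ z ∈ S, hc z = h z - d) {M : ℝ}
    (hM : ∀ z, |gc z| ≤ M) :
    |av G β (fun σ => packD G i j k g g' h' σ * cur G j k (dd G h) σ)| ≤
      (4 / β * nrm (dd G gc) + 4 / (β * Real.sqrt β) * M) * nrm (dd G g') * nrm (dd G h') *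
        nrm (dd G hc) * part G n β := by
  have A := alg_stmt n V ι G β i j k hij hik hjk
  have hP : Loc S (pack (n := n) G i j k g' h') := loc_pack i j k hS
  have hrot : ∀ f : V → ℝ,
      HasRot hik f (pack (n := n) G i j k g' h') (packD G i j k f g' h') :=
    fun f => (A f f g' h').1
  have e1 : ∀ σ, packD G i j k g g' h' σ =
      packD G i j k gc g' h' σ + c * packD G i j k (fun _ => 1) g' h' σ := fun σ => by
    rw [← packD_add_const]
    exact hP.deriv_eq (hrot g) (hrot fun z => gc z + c) (fun z hz => by rw [hgc z hz]; ring) σ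
  have hone := (A h h g' h').2.2.2.2.2.2 hβ
  have hloc : Loc S (packD (n := n) G i j k gc g' h') := hP.deriv (hrot gc)
  have hrd : Rotd (packD (n := n) G i j k gc g' h') := (A gc h g' h').2.2.1
  have hz := av_mul_cur_eq_zero (G := G) hβ.ne' hrd hloc hjk (k := fun z => h z - hc z) (c := d)
    fun z hzS => by rw [hhc z hzS]; ring
  have hd : dd G h = fun b => dd G hc b + dd G (fun z => h z - hc z) b := by
    funext b; simp only [dd]; ring
  have c0 : Continuous (packD (n := n) G i j k gc g' h') := (hrot gc).cont'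
  have c1 : Continuous (packD (n := n) G i j k (fun _ => 1) g' h') := (hrot fun _ => 1).cont'
  have hcc := fun a b F => continuous_cur (G := G) (n := n) a b F
  have key : av G β (fun σ => packD G i j k g g' h' σ * cur G j k (dd G h) σ) =
      av G β (fun σ => packD G i j k gc g' h' σ * cur G j k (dd G hc) σ) := by
    have e2 : (fun σ => packD G i j k g g' h' σ * cur G j k (dd G h) σ) = fun σ =>
        (packD G i j k gc g' h' σ * cur G j k (dd G hc) σ +
          packD G i j k gc g' h' σ * cur G j k (dd G fun z => h z - hc z) σ) +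
          c * (packD G i j k (fun _ => 1) g' h' σ * cur G j k (dd G h) σ) := by
      funext σ
      have e3 : cur G j k (dd G h) σ =
          cur G j k (dd G hc) σ + cur G j k (dd G fun z => h z - hc z) σ := by
        rw [hd, cur_add]
      rw [e1, add_mul, e3]
      ring
    have f1 : Continuous fun σ => packD G i j k gc g' h' σ * cur G j k (dd G hc) σ :=
      c0.mul (hcc _ _ _)
    have f2 : Continuous fun σ =>
        packD G i j k gc g' h' σ * cur G j k (dd G fun z => h z - hc z) σ := c0.mul (hcc _ _ _)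
    have f3 : Continuous fun σ : V → Spin n =>
        c * (packD G i j k (fun _ => 1) g' h' σ * cur G j k (dd G h) σ) :=
      continuous_const.mul (c1.mul (hcc _ _ _))
    rw [e2, av_add (f1.fun_add f2) f3, av_add f1 f2, av_const_mul, hz, hone]
    ring
  rw [key]
  exact bound_stmt (dia_stmt pos_stmt) n V ι G β hβ i j k hij hik hjk gc hc g' h' M hM

variable {Lx Ly : ℕ} [NeZero Lx] [NeZero Ly]

omit [NeZero n] in
/-- The packets of one scale, all translates. -/
def packs (Lx Ly : ℕ) [NeZero Lx] [NeZero Ly] (i j k : Fin n) (R : ℕ)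
    (σ : ZMod Lx × ZMod Ly → Spin n) : ℝ :=
  ∑ x, pack (torus Lx Ly) i j k (gb R x) (hb R x) σ

omit [NeZero n] in
lemma continuous_packs (i j k : Fin n) (R : ℕ) : Continuous (packs Lx Ly i j k R) :=
  continuous_finsetSum _ fun _ _ => continuous_pack _ _

/-- The correlation of packets at two scales. -/
lemma cross_le {β : ℝ} (hβ : 0 < β) {i j k : Fin n} (hij : i ≠ j) (hik : i ≠ k) (hjk : j ≠ k)
    {r R : ℕ} (hr : 1 ≤ r) (hrR : r ≤ R) (hLx : 12 * R ≤ Lx) (hLy : 12 * R ≤ Ly) :
    β ^ 4 * av (torus Lx Ly) β (fun σ => packs Lx Ly i j k r σ * packs Lx Ly i j k R σ) ≤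
      1920000000000 * (β + β ^ 2) * (r : ℝ) ^ 2 * ((Lx : ℝ) * Ly) * part (torus Lx Ly) n β -
        (r : ℝ) * R * form (torus Lx Ly) β i j hor hor := by
  set G := torus Lx Ly with hG
  set Z := part G n β with hZdef
  set S := form G β i j hor hor with hSdef
  have hZ : 0 ≤ Z := part_nonneg n β
  have hS : 0 ≤ S := (dia_stmt pos_stmt n _ _ G β hβ.le i j hij hor 0).1
  obtain ⟨gsupp, gnrm, gvert, gshift, gsum, gcut, gY⟩ := Geo.geo_stmt Lx Ly r R hr hrR hLx hLy
  obtain ⟨_, _, rvert, rshift, rsum, -, -⟩ :=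
    Geo.geo_stmt Lx Ly r r hr le_rfl (le_trans (by omega) hLx) (le_trans (by omega) hLy)
  rw [← hG] at gsupp gnrm gvert gshift gsum gcut rvert rshift rsum
  set WR := ∑ z, wgt G (gb R 0) (hb R 0) (z, false) with hWR
  set Wr := ∑ z, wgt G (gb r 0) (hb r 0) (z, false) with hWr
  set T : ZMod Lx × ZMod Ly → ZMod Lx × ZMod Ly → ℝ := fun x y =>
    av G β (fun σ => packD G i j k (gb R y) (gb r x) (hb r x) σ * cur G j k (dd G (hb R y)) σ) -
      av G β (fun σ => packD G i j k (hb R y) (gb r x) (hb r x) σ * cur G j k (dd G (gb R y)) σ)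
    with hT
  have hpc : ∀ (R' : ℕ) (x : ZMod Lx × ZMod Ly),
      Continuous (pack (n := n) G i j k (gb R' x) (hb R' x)) := fun _ _ => continuous_pack _ _
  have hrow : ∀ x, β ^ 4 * av G β (fun σ =>
      pack G i j k (gb r x) (hb r x) σ * packs Lx Ly i j k R σ) =
      -β ^ 3 * (∑ y, T x y) - WR * form G β i j hor (wgt G (gb r x) (hb r x)) := by
    intro x
    have A := fun g h => alg_stmt n _ _ G β i j k hij hik hjk g h (gb r x) (hb r x)
    have hpair : ∀ y,
        β * av G β (fun σ => pack G i j k (gb r x) (hb r x) σ *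
          pack G i j k (gb R y) (hb R y) σ) =
        -T x y + av G β (fun σ => pack G i j k (gb r x) (hb r x) σ *
          cur G i j (wgt G (gb R y) (hb R y)) σ) := fun y => by
      have h := (A (gb R y) (hb R y)).2.2.2.1 _ _ _ (A (gb R y) (hb R y)).1
        (A (hb R y) (gb R y)).1
      simp only [hT]
      linarith
    have hjo := (alg_stmt n _ _ G β i j k hij hik hjk (gb r x) (hb r x) (gb r x)
      (hb r x)).2.2.2.2.1 hor
    have hw : (fun b => ∑ y, wgt G (gb R y) (hb R y) b) = fun b => WR * hor b := by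
      funext b
      obtain ⟨z, _ | _⟩ := b
      · simp only [gshift _ z, hor, if_neg Bool.false_ne_true, mul_one]
        exact Equiv.sum_comp (Equiv.subLeft z) fun u => wgt G (gb R 0) (hb R 0) (u, false)
      · simp [gvert, hor]
    have hcur : (∑ y, av G β (fun σ => pack G i j k (gb r x) (hb r x) σ *
        cur G i j (wgt G (gb R y) (hb R y)) σ)) =
        WR * av G β (fun σ => cur G i j hor σ * pack G i j k (gb r x) (hb r x) σ) := by
      rw [← av_sum Finset.univ (β := β) (fun y _ => (hpc r x).fun_mul (continuous_cur _ _ _)),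
        ← av_const_mul]
      refine congrArg (av G β) (funext fun σ => ?_)
      rw [← Finset.mul_sum, ← cur_sum, hw, cur_smul]
      ring
    have hsum : β * av G β (fun σ => pack G i j k (gb r x) (hb r x) σ *
        packs Lx Ly i j k R σ) = -(∑ y, T x y) +
        WR * av G β (fun σ => cur G i j hor σ * pack G i j k (gb r x) (hb r x) σ) := by
      simp only [packs, Finset.mul_sum]
      rw [av_sum Finset.univ (β := β) (fun y _ => (hpc r x).fun_mul (hpc R y)), Finset.mul_sum,
        Finset.sum_congr rfl fun y _ => hpair y, Finset.sum_add_distrib, hcur,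
        Finset.sum_neg_distrib]
    linear_combination β ^ 3 * hsum + WR * hjo
  have hN : (0 : ℝ) < (Lx : ℝ) * Ly := by
    have h1 : (0 : ℝ) < Lx := by exact_mod_cast Nat.pos_of_ne_zero (NeZero.ne Lx)
    have h2 : (0 : ℝ) < Ly := by exact_mod_cast Nat.pos_of_ne_zero (NeZero.ne Ly)
    positivity
  have hform : ∀ x, form G β i j hor (wgt G (gb r x) (hb r x)) * ((Lx : ℝ) * Ly) = Wr * S := by
    intro x
    rw [mul_comm, trans_stmt n Lx Ly β i j _ (fun z => rvert x z), ← hSdef]
    refine congrArg (· * S) ?_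
    simp only [rshift x]
    exact Equiv.sum_comp (Equiv.subRight x) fun u => wgt G (gb r 0) (hb r 0) (u, false)
  have hformsum : ∑ x, form G β i j hor (wgt G (gb r x) (hb r x)) = Wr * S := by
    refine mul_right_cancel₀ hN.ne' ?_
    rw [Finset.sum_mul, Finset.sum_congr rfl fun x _ => hform x, Finset.sum_const,
      Finset.card_univ, Fintype.card_prod, ZMod.card, ZMod.card, nsmul_eq_mul]
    push_cast
    ring
  set D : ℝ := 1600000000 * (1 / β + 1 / (β * Real.sqrt β)) * ((r : ℝ) / R) ^ 2 * Z with hD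
  have hR : (1 : ℝ) ≤ R := by exact_mod_cast hr.trans hrR
  have hsb : 0 < Real.sqrt β := Real.sqrt_pos.2 hβ
  have hD0 : 0 ≤ D := by positivity
  have hTx : ∀ x, ∑ y, |T x y| ≤ 300 * (R : ℝ) ^ 2 * (2 * D) := by
    intro x
    have hterm : ∀ y f f', (f = gb R y ∨ f = hb R y) → (f' = gb R y ∨ f' = hb R y) →
        |av G β (fun σ => packD G i j k f (gb r x) (hb r x) σ * cur G j k (dd G f') σ)| ≤
          (4 / β * nrm (dd G (cut r x f)) + 4 / (β * Real.sqrt β) * (24 * r / R)) *
            nrm (dd G (gb r x)) * nrm (dd G (hb r x)) * nrm (dd G (cut r x f')) * Z :=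
      fun y f f' hf hf' =>
        local_term_le G hβ hij hik hjk f f' (gb r x) (hb r x) (cut r x f) (cut r x f') (f x) (f' x)
          (S := sq r x) (fun b hb' => gsupp x b hb') (gcut x y f hf).2.2 (gcut x y f' hf').2.2
          (gcut x y f hf).1
    obtain ⟨Y, hYcard, hYzero⟩ := gY x
    have hle : ∀ y, |T x y| ≤ 2 * D := by
      have hone : ∀ y f f', (f = gb R y ∨ f = hb R y) → (f' = gb R y ∨ f' = hb R y) →
          |av G β (fun σ => packD G i j k f (gb r x) (hb r x) σ * cur G j k (dd G f') σ)| ≤ D := by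
        intro y f f' hf hf'
        refine (hterm y f f' hf hf').trans ?_
        have b1 := (gnrm x).1
        have b2 := (gnrm x).2
        have b3 := (gcut x y f hf).2.1
        have b4 := (gcut x y f' hf').2.1
        calc _ ≤ (4 / β * (500 * r / R) + 4 / (β * Real.sqrt β) * (24 * r / R)) * 40 * 40 *
              (500 * r / R) * Z := by
              have := Real.sqrt_nonneg (∑ b, dd G (gb r x) b ^ 2)
              have := nrm_nonneg (dd G (cut r x f))
              have := nrm_nonneg (dd G (cut r x f'))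
              have := nrm_nonneg (dd G (gb r x))
              have := nrm_nonneg (dd G (hb r x))
              gcongr
          _ ≤ D := by
              have e : (4 / β * (500 * r / R) + 4 / (β * Real.sqrt β) * (24 * r / R)) * 40 * 40 *
                  (500 * r / R) * Z = (1600000000 * (1 / β) + 76800000 * (1 / (β * Real.sqrt β))) *
                    ((r : ℝ) / R) ^ 2 * Z := by
                ring
              rw [e, hD]
              gcongr
              linarith [show (0 : ℝ) ≤ 1 / (β * Real.sqrt β) by positivity]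
      intro y
      rw [two_mul]
      exact (abs_sub _ _).trans
        (add_le_add (hone y _ _ (Or.inl rfl) (Or.inr rfl)) (hone y _ _ (Or.inr rfl) (Or.inl rfl)))
    have hzero : ∀ y, y ∉ Y → T x y = 0 := by
      intro y hy
      obtain ⟨z1, z2⟩ := hYzero y hy
      have h0 : nrm (dd G (0 : ZMod Lx × ZMod Ly → ℝ)) = 0 := by simp [nrm, dd]
      have h1 := hterm y _ _ (Or.inl rfl) (Or.inr rfl)
      have h2 := hterm y _ _ (Or.inr rfl) (Or.inl rfl)
      rw [z2, h0, mul_zero, zero_mul, abs_nonpos_iff] at h1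
      rw [z1, h0, mul_zero, zero_mul, abs_nonpos_iff] at h2
      simp only [hT, h1, h2, sub_zero]
    calc ∑ y, |T x y| = ∑ y ∈ Y, |T x y| :=
          (Finset.sum_subset (Finset.subset_univ _) fun y _ hy => by simp [hzero y hy]).symm
      _ ≤ (Y.card : ℝ) * (2 * D) := by
          rw [← nsmul_eq_mul]; exact Finset.sum_le_card_nsmul _ _ _ fun y _ => hle y
      _ ≤ _ := mul_le_mul_of_nonneg_right hYcard (by positivity)
  have hmain : β ^ 4 * av G β (fun σ => packs Lx Ly i j k r σ * packs Lx Ly i j k R σ) =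
      -β ^ 3 * (∑ x, ∑ y, T x y) - WR * (Wr * S) := by
    have e : (fun σ => packs Lx Ly i j k r σ * packs Lx Ly i j k R σ) =
        fun σ => ∑ x, pack G i j k (gb r x) (hb r x) σ * packs Lx Ly i j k R σ :=
      funext fun σ => Finset.sum_mul _ _ _
    rw [e, av_sum Finset.univ (β := β) (fun x _ => (hpc r x).fun_mul (continuous_packs i j k R)),
      Finset.mul_sum, Finset.sum_congr rfl fun x _ => hrow x, Finset.sum_sub_distrib,
      ← Finset.mul_sum, ← Finset.mul_sum, hformsum]
  have hsumT : -β ^ 3 * (∑ x, ∑ y, T x y) ≤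
      β ^ 3 * (((Lx : ℝ) * Ly) * (300 * (R : ℝ) ^ 2 * (2 * D))) := by
    rw [neg_mul, ← mul_neg]
    refine mul_le_mul_of_nonneg_left ?_ (by positivity)
    calc -(∑ x, ∑ y, T x y) ≤ ∑ x, ∑ y, |T x y| := by
          rw [← Finset.sum_neg_distrib]
          exact Finset.sum_le_sum fun x _ => by
            rw [← Finset.sum_neg_distrib]
            exact Finset.sum_le_sum fun y _ => neg_le_abs _
      _ ≤ ∑ _x : ZMod Lx × ZMod Ly, 300 * (R : ℝ) ^ 2 * (2 * D) := Finset.sum_le_sum fun x _ => hTx x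
      _ = _ := by
          rw [Finset.sum_const, Finset.card_univ, Fintype.card_prod, ZMod.card, ZMod.card,
            nsmul_eq_mul]
          push_cast
          ring
  have hWW : (r : ℝ) * R * S ≤ WR * (Wr * S) := by
    rw [← mul_assoc]
    refine mul_le_mul_of_nonneg_right ?_ hS
    nlinarith [mul_le_mul (neg_le_neg gsum) (neg_le_neg rsum) (by simp) (by linarith)]
  have hbeta : β ^ 3 * (1 / β + 1 / (β * Real.sqrt β)) ≤ 2 * (β + β ^ 2) := by
    have hs := Real.mul_self_sqrt hβ.le
    have e : β ^ 3 * (1 / β + 1 / (β * Real.sqrt β)) = β ^ 2 + β * Real.sqrt β := by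
      field_simp
      linear_combination -hs
    rw [e]
    nlinarith [mul_nonneg hβ.le (sq_nonneg (Real.sqrt β - 1))]
  have hlast : β ^ 3 * (((Lx : ℝ) * Ly) * (300 * (R : ℝ) ^ 2 * (2 * D))) ≤
      1920000000000 * (β + β ^ 2) * (r : ℝ) ^ 2 * ((Lx : ℝ) * Ly) * Z := by
    have e : β ^ 3 * (((Lx : ℝ) * Ly) * (300 * (R : ℝ) ^ 2 * (2 * D))) =
        960000000000 * (β ^ 3 * (1 / β + 1 / (β * Real.sqrt β))) *
          ((r : ℝ) ^ 2 * ((Lx : ℝ) * Ly) * Z) := by
      rw [hD]
      field_simp
      ring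
    rw [e]
    refine (mul_le_mul_of_nonneg_right (mul_le_mul_of_nonneg_left hbeta (by norm_num))
      (by positivity)).trans (le_of_eq ?_)
    ring
  linarith [hmain, hsumT, hWW, hlast]

omit [NeZero n] in
lemma geom_double (K a : ℕ) (ha : a < K) :
    ∑ b ∈ Finset.range K, (2 : ℝ) ^ min a b / 2 ^ max a b ≤ 4 := by
  rw [← Finset.sum_range_add_sum_Ico _ ha.le]
  have h1 : ∀ N : ℕ, ∑ c ∈ Finset.range N, (1 / (2 : ℝ)) ^ c ≤ 2 := sum_geometric_two_le
  have e1 : ∑ b ∈ Finset.range a, (2 : ℝ) ^ min a b / 2 ^ max a b ≤ 2 := by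
    rw [← Finset.sum_range_reflect]
    refine le_trans (Finset.sum_le_sum fun c hc => ?_) (h1 a)
    have hc' := Finset.mem_range.1 hc
    rw [min_eq_right (by omega), max_eq_left (by omega), div_le_iff₀ (by positivity), one_div,
      inv_pow, ← div_eq_inv_mul, le_div_iff₀ (by positivity), ← pow_add]
    exact pow_le_pow_right₀ (by norm_num) (by omega)
  have e2 : ∑ b ∈ Finset.Ico a K, (2 : ℝ) ^ min a b / 2 ^ max a b ≤ 2 := by
    rw [Finset.sum_Ico_eq_sum_range]
    refine le_trans (le_of_eq (Finset.sum_congr rfl fun c _ => ?_)) (h1 (K - a))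
    rw [min_eq_left (by omega), max_eq_right (by omega), pow_add, one_div, inv_pow]
    field_simp
  linarith

/-- The helicity modulus is bounded by the inverse logarithm of the period. -/
theorem stiff_stmt : StiffStmt := by
  refine ⟨11 * (4 * 1920000000000 + 1), by norm_num, ?_⟩
  intro n _ hn β hβ0 Lx Ly _ _ hx hy i j hij
  set G := torus Lx Ly with hG
  set S := form G β i j hor hor with hSdef
  set Z := part G n β with hZdef
  rcases hβ0.eq_or_lt with hb | hβ
  · have h0 : S = 0 := by simp [hSdef, form, ← hb]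
    rw [h0, ← hb]
    simp
  obtain ⟨k, hk⟩ : ∃ k : Fin n, k ∉ ({i, j} : Finset (Fin n)) := by
    refine Finset.exists_mem_notMem_of_card_lt_card (s := {i, j}) (t := Finset.univ) ?_ |>.imp
      fun _ h => h.2
    rw [Finset.card_univ, Fintype.card_fin]
    exact (Finset.card_le_two).trans_lt (by omega)
  obtain ⟨hki, hkj⟩ : k ≠ i ∧ k ≠ j := by simpa using hk
  set m := min Lx Ly with hm
  have hex : ∃ K, m < 12 * 2 ^ K := ⟨m, by have := Nat.lt_two_pow_self (n := m); omega⟩
  set K := Nat.find hex with hKdef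
  have hKspec : m < 12 * 2 ^ K := Nat.find_spec hex
  have hsmall : ∀ a, a < K → 12 * 2 ^ a ≤ Lx ∧ 12 * 2 ^ a ≤ Ly := fun a ha => by
    have := Nat.find_min hex (hKdef ▸ ha)
    omega
  set P : ℝ := (β + β ^ 2) * ((Lx : ℝ) * Ly) * Z with hP
  have hZ : 0 ≤ Z := part_nonneg n β
  have hP0 : 0 ≤ P := by positivity
  set ψ : ℕ → (ZMod Lx × ZMod Ly → Spin n) → ℝ := fun a σ =>
    ((2 : ℝ) ^ a)⁻¹ * packs Lx Ly i j k (2 ^ a) σ with hψ
  have hψc : ∀ a, Continuous (ψ a) := fun a =>
    continuous_const.mul (continuous_packs i j k (2 ^ a))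
  have hone : ∀ a b, a ≤ b → b < K → β ^ 4 * av G β (fun σ => ψ a σ * ψ b σ) ≤
      1920000000000 * P * ((2 : ℝ) ^ a / 2 ^ b) - S := by
    intro a b hab hbK
    have h := cross_le hβ hij hki.symm hkj.symm (r := 2 ^ a) (R := 2 ^ b) Nat.one_le_two_pow
      (Nat.pow_le_pow_right (by norm_num) hab) (hsmall b hbK).1 (hsmall b hbK).2
    push_cast at h
    have e : (fun σ => ψ a σ * ψ b σ) = fun σ => (((2 : ℝ) ^ a)⁻¹ * ((2 : ℝ) ^ b)⁻¹) *
        (packs Lx Ly i j k (2 ^ a) σ * packs Lx Ly i j k (2 ^ b) σ) := by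
      funext σ; simp only [hψ]; ring
    rw [e, av_const_mul]
    have hab0 : (0 : ℝ) ≤ ((2 : ℝ) ^ a)⁻¹ * ((2 : ℝ) ^ b)⁻¹ := by positivity
    calc β ^ 4 * (((2 : ℝ) ^ a)⁻¹ * ((2 : ℝ) ^ b)⁻¹ * av G β fun σ =>
          packs Lx Ly i j k (2 ^ a) σ * packs Lx Ly i j k (2 ^ b) σ)
        = ((2 : ℝ) ^ a)⁻¹ * ((2 : ℝ) ^ b)⁻¹ * (β ^ 4 * av G β fun σ =>
          packs Lx Ly i j k (2 ^ a) σ * packs Lx Ly i j k (2 ^ b) σ) := by ring
      _ ≤ _ := mul_le_mul_of_nonneg_left h hab0
      _ = _ := by
          simp only [hP, hSdef, hG, hZdef]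
          field_simp
  have htwo : ∀ a b, a < K → b < K → β ^ 4 * av G β (fun σ => ψ a σ * ψ b σ) ≤
      1920000000000 * P * ((2 : ℝ) ^ min a b / 2 ^ max a b) - S := by
    intro a b ha hb
    rcases le_total a b with hab | hab
    · rw [min_eq_left hab, max_eq_right hab]; exact hone a b hab hb
    · rw [min_eq_right hab, max_eq_left hab,
        show (fun σ => ψ a σ * ψ b σ) = fun σ => ψ b σ * ψ a σ from funext fun σ => mul_comm _ _]
      exact hone b a hab ha
  have hsq : (0 : ℝ) ≤ β ^ 4 * av G β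
      (fun σ => ∑ a ∈ Finset.range K, ∑ b ∈ Finset.range K, ψ a σ * ψ b σ) :=
    mul_nonneg (by positivity) (av_nonneg fun σ => by
      rw [← Finset.sum_mul_sum]; exact mul_self_nonneg _)
  have hbig : (K : ℝ) * ((K : ℝ) * S) ≤ (K : ℝ) * (4 * 1920000000000 * P) := by
    rw [av_sum _ (β := β) fun a _ => continuous_finsetSum _ fun b _ => (hψc a).fun_mul (hψc b),
      Finset.mul_sum] at hsq
    have h2 : ∀ a ∈ Finset.range K, β ^ 4 * av G β (fun σ => ∑ b ∈ Finset.range K, ψ a σ * ψ b σ) ≤
        4 * 1920000000000 * P - K * S := by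
      intro a ha
      rw [av_sum _ (β := β) fun b _ => (hψc a).fun_mul (hψc b), Finset.mul_sum]
      refine (Finset.sum_le_sum fun b hb =>
        htwo a b (Finset.mem_range.1 ha) (Finset.mem_range.1 hb)).trans ?_
      rw [Finset.sum_sub_distrib, ← Finset.mul_sum, Finset.sum_const, Finset.card_range,
        nsmul_eq_mul]
      have := mul_le_mul_of_nonneg_left (geom_double K a (Finset.mem_range.1 ha))
        (show (0 : ℝ) ≤ 1920000000000 * P by positivity)
      linarith
    have h3 := hsq.trans (Finset.sum_le_sum h2)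
    rw [Finset.sum_const, Finset.card_range, nsmul_eq_mul] at h3
    linarith
  have hSK : (K : ℝ) * S ≤ 4 * 1920000000000 * P := by
    rcases Nat.eq_zero_or_pos K with h | h
    · rw [h]; simp; positivity
    · exact le_of_mul_le_mul_left hbig (by exact_mod_cast h)
  have hS1 : S ≤ P := by
    have h := form_self_le (G := G) hβ0 hij (hor (Lx := Lx) (Ly := Ly))
    have hh : ∑ b : (ZMod Lx × ZMod Ly) × Bool, hor b * hor b = (Lx : ℝ) * Ly := by
      rw [Fintype.sum_prod_type]
      simp [hor, Fintype.card_prod, ZMod.card]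
    rw [hh] at h
    refine h.trans ?_
    rw [hP]
    gcongr
    nlinarith
  have hS0 : 0 ≤ S := (dia_stmt pos_stmt n _ _ G β hβ0 i j hij hor 0).1
  have hm2 : (2 : ℝ) ≤ min (Lx : ℝ) Ly := le_min (by exact_mod_cast hx) (by exact_mod_cast hy)
  have hlog : 0 < Real.log (min (Lx : ℝ) Ly) := Real.log_pos (by linarith)
  have hlogle : Real.log (min (Lx : ℝ) Ly) ≤ 11 * ((K : ℝ) + 1) := by
    have h1 : min (Lx : ℝ) Ly ≤ 12 * (2 : ℝ) ^ K := by
      rw [← Nat.cast_min]
      exact_mod_cast hKspec.le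
    refine (Real.log_le_log (by linarith) h1).trans ?_
    rw [Real.log_mul (by norm_num) (by positivity), Real.log_pow]
    have := Real.log_le_sub_one_of_pos (show (0 : ℝ) < 12 by norm_num)
    nlinarith [Real.log_two_lt_d9, Nat.cast_nonneg (α := ℝ) K]
  have hfin : S * Real.log (min (Lx : ℝ) Ly) ≤ 11 * (4 * 1920000000000 + 1) * P := by
    calc S * Real.log (min (Lx : ℝ) Ly) ≤ S * (11 * ((K : ℝ) + 1)) :=
          mul_le_mul_of_nonneg_left hlogle hS0
      _ ≤ _ := by linarith
  rw [div_mul_eq_mul_div, le_div_iff₀ hlog]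
  refine hfin.trans (le_of_eq ?_)
  rw [hP]
  ring

end Vale.Agent.P163.Helicity
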