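import Vale.Agent.P163.Helicity.Spec

/-!
The seam twist is gauge equivalent to a uniform horizontal gauge field.
-/

noncomputable section

namespace Vale.Agent.P163.Helicity

open MeasureTheory Metric
open scoped RealInnerProductSpace

/-- The seam twist is a uniform gauge field. -/
theorem seam_stmt : SeamStmt := by
  intro n Lx Ly _ _ _ β i j hij θ
  set P := pl hij with hP
  set φ : ZMod Lx × ZMod Ly → ℝ := fun x => θ * (x.1.val : ℝ) / Lx with hφ
  have hvec : ∀ a (v : Euc n), rotVec i j a v = P.rotFun a v := fun a v => by
    ext c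
    simp only [rotVec, hP, Plane.rotFun, pl, EuclideanSpace.inner_single_left, map_one, one_mul,
      PiLp.add_apply, PiLp.smul_apply, PiLp.single_apply, smul_eq_mul]
    by_cases hc : c = i
    · subst hc; rw [if_pos rfl, if_pos rfl, if_neg hij]; ring
    · by_cases hc' : c = j
      · subst hc'; rw [if_neg hc, if_pos rfl, if_neg hc, if_pos rfl]; ring
      · simp [hc, hc']
  have hkey : ∀ τ, twistEn Lx Ly i j θ (rotF P φ τ) =
      enT (torus Lx Ly) i j hor (-θ / Lx) τ := by
    intro τ
    simp only [twistEn, enT, en, pen, cur, ← Finset.sum_add_distrib]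
    conv_rhs => rw [Fintype.sum_prod_type]
    refine Finset.sum_congr rfl fun x _ => ?_
    rw [Fintype.sum_bool, add_comm (G := ℝ)]
    simp only [torus, hor, rotF_coe, if_true, Bool.false_eq_true, if_false, mul_zero, Real.cos_zero,
      Real.sin_zero, sub_self, zero_mul, add_zero, mul_one]
    congr 1
    · -- vertical
      rw [show φ (x + (0, 1)) = φ x by simp [hφ], Plane.inner_rot_rot]
    · -- horizontal
      have hL : (0 : ℝ) < Lx := by exact_mod_cast Nat.pos_of_ne_zero (NeZero.ne Lx)
      have hval : (x.1 + 1).val = (x.1.val + 1) % Lx := by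
        rw [ZMod.val_add, ZMod.val_one_eq_one_mod, Nat.add_mod_mod]
      have hlt := ZMod.val_lt x.1
      obtain ⟨b, hb, hang⟩ : ∃ b, (if x.1.val + 1 = Lx then
          rotVec i j θ (P.rotFun (φ (x + (1, 0))) (τ (x + (1, 0))))
            else P.rotFun (φ (x + (1, 0))) (τ (x + (1, 0)) : Euc n)) =
          P.rotFun b (τ (x + (1, 0))) ∧ φ x - b = -θ / Lx := by
        by_cases h : x.1.val + 1 = Lx
        · refine ⟨θ + φ (x + (1, 0)), by rw [if_pos h, hvec, Plane.rot_rot], ?_⟩
          simp only [hφ, Prod.fst_add, hval, h, Nat.mod_self, Nat.cast_zero]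
          have : (x.1.val : ℝ) + 1 = Lx := by exact_mod_cast h
          field_simp
          linear_combination θ * this
        · refine ⟨φ (x + (1, 0)), by rw [if_neg h], ?_⟩
          simp only [hφ, Prod.fst_add, hval, Nat.mod_eq_of_lt (show x.1.val + 1 < Lx by omega)]
          push_cast
          field_simp
          ring
      rw [hb, Plane.inner_rot_two, hang]
      simp only [Plane.perp, Plane.inPart, Plane.cross, hP, pl, co,
        EuclideanSpace.inner_single_left, map_one, one_mul]
      ring
  have hc : Continuous fun σ : ZMod Lx × ZMod Ly → Spin n =>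
      Real.exp (β * twistEn Lx Ly i j θ σ) := by
    have h1 : ∀ x : ZMod Lx × ZMod Ly, Continuous fun σ : ZMod Lx × ZMod Ly → Spin n =>
        if x.1.val + 1 = Lx then rotVec i j θ (σ (x + (1, 0))) else (σ (x + (1, 0)) : Euc n) := by
      intro x
      split_ifs
      · simp only [hvec]; exact (P.rot θ).continuous.comp (continuous_spin _)
      · fun_prop
    unfold twistEn; fun_prop
  rw [twistZ, zA, ← integral_rotF P φ hc]
  simp only [hkey]

end Vale.Agent.P163.Helicity
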