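import Vale.Agent.P163.Defs

/-!
The `O(n)` model on a rectangular torus with a rotation twist across one seam.
-/

noncomputable section

namespace Vale.Agent.P163.Helicity

open MeasureTheory Metric
open scoped RealInnerProductSpace

/-- Rotation by the angle `θ` in the `(i,j)` coordinate plane. -/
def rotVec {n : ℕ} (i j : Fin n) (θ : ℝ) (v : Euc n) : Euc n :=
  WithLp.toLp 2 fun a => if a = i then Real.cos θ * v i - Real.sin θ * v j
    else if a = j then Real.sin θ * v i + Real.cos θ * v j else v a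

/-- The energy on the `Lx × Ly` torus, the horizontal bonds across the seam being twisted by `θ`. -/
def twistEn {n : ℕ} (Lx Ly : ℕ) [NeZero Lx] [NeZero Ly] (i j : Fin n) (θ : ℝ)
    (σ : ZMod Lx × ZMod Ly → Spin n) : ℝ :=
  ∑ x : ZMod Lx × ZMod Ly,
    (⟪(σ x : Euc n),
        if x.1.val + 1 = Lx then rotVec i j θ (σ (x + (1, 0))) else (σ (x + (1, 0)) : Euc n)⟫ +
      ⟪(σ x : Euc n), (σ (x + (0, 1)) : Euc n)⟫)

/-- The twisted partition function. -/
def twistZ (n : ℕ) (β : ℝ) (Lx Ly : ℕ) [NeZero Lx] [NeZero Ly] (i j : Fin n) (θ : ℝ) : ℝ :=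
  ∫ σ, Real.exp (β * twistEn Lx Ly i j θ σ) ∂freeLaw (ZMod Lx × ZMod Ly) n

end Vale.Agent.P163.Helicity
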