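import Vale.Agent.P163.Helicity.Model
import Vale.Agent.P163.Helicity.Twist

/-!
Interfaces of the proof that the helicity modulus vanishes for `n ≥ 3`.
-/

noncomputable section

namespace Vale.Agent.P163.Helicity

open MeasureTheory Metric
open scoped RealInnerProductSpace

variable {n : ℕ} {V ι : Type*} [Fintype V] [Fintype ι]

/-- The euclidean norm of a bond field. -/
def nrm (A : ι → ℝ) : ℝ := Real.sqrt (∑ b, A b ^ 2)

variable (G : Graph V ι)

/-- The partition function. -/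
def part (n : ℕ) (β : ℝ) : ℝ := av (n := n) G β fun _ => 1

/-- Minus the Hessian of the partition function in the gauge field. -/
def form (β : ℝ) (i j : Fin n) (A B : ι → ℝ) : ℝ :=
  β * av G β (pen G i j fun b => A b * B b) -
    β ^ 2 * av G β fun σ => cur G i j A σ * cur G i j B σ

/-- The energy in the gauge field `t A`. -/
def enT (i j : Fin n) (A : ι → ℝ) (t : ℝ) (σ : V → Spin n) : ℝ :=
  en G σ + pen G i j (fun b => Real.cos (t * A b) - 1) σ + cur G i j (fun b => Real.sin (t * A b)) σ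

/-- The partition function in the gauge field `t A`. -/
def zA (β : ℝ) (i j : Fin n) (A : ι → ℝ) (t : ℝ) : ℝ :=
  ∫ σ, Real.exp (β * enT G i j A t σ) ∂freeLaw V n

/-- The current packet. -/
def pack (i j k : Fin n) (g h : V → ℝ) (σ : V → Spin n) : ℝ :=
  cur G i k (dd G g) σ * cur G j k (dd G h) σ - cur G i k (dd G h) σ * cur G j k (dd G g) σ

/-- Half of the rotation derivative of a packet. -/
def packHalf (i j k : Fin n) (g : V → ℝ) (a c : ι → ℝ) (σ : V → Spin n) : ℝ :=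
  -pen G i k (fun b => a b * dd G g b) σ * cur G j k c σ +
    cur G i k a σ * (-cur G i j (fun b => c b * mid G g b) σ -
      sym G i j (fun b => c b * dd G g b) σ / 2)

/-- The derivative of `pack g' h'` under the rotation by `g` in the `(i,k)` plane. -/
def packD (i j k : Fin n) (g g' h' : V → ℝ) (σ : V → Spin n) : ℝ :=
  packHalf G i j k g (dd G g') (dd G h') σ - packHalf G i j k g (dd G h') (dd G g') σ

/-- The weight produced by a pair of potentials. -/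
def wgt (g h : V → ℝ) (b : ι) : ℝ := g (G.tgt b) * h (G.src b) - g (G.src b) * h (G.tgt b)

/-- Positivity of the gauge partition function. -/
def PosStmt : Prop :=
  ∀ (n : ℕ) (V ι : Type) [Fintype V] [Fintype ι] [NeZero n] (G : Graph V ι) (β : ℝ), 0 ≤ β →
    ∀ (i j : Fin n), i ≠ j → ∀ (A : ι → ℝ) (t : ℝ), zA G β i j A t ≤ zA G β i j A 0 ∧
      ∀ m : ℕ, 1 ≤ m →
        zA G β i j A 0 - zA G β i j A t ≤ (m : ℝ) ^ 2 * (zA G β i j A 0 - zA G β i j A (t / m))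

/-- Diamagnetic inequalities. -/
def DiaStmt : Prop :=
  ∀ (n : ℕ) (V ι : Type) [Fintype V] [Fintype ι] [NeZero n] (G : Graph V ι) (β : ℝ), 0 ≤ β →
    ∀ (i j : Fin n), i ≠ j → ∀ (A : ι → ℝ) (t : ℝ),
      0 ≤ form G β i j A A ∧ zA G β i j A 0 = part G n β ∧ zA G β i j A t ≤ part G n β ∧
        part G n β - zA G β i j A t ≤ t ^ 2 / 2 * form G β i j A A

/-- The exact identities. -/
def AlgStmt : Prop :=
  ∀ (n : ℕ) (V ι : Type) [Fintype V] [Fintype ι] [NeZero n] (G : Graph V ι) (β : ℝ),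
    ∀ (i j k : Fin n), i ≠ j → ∀ (hik : i ≠ k), j ≠ k → ∀ (g h g' h' : V → ℝ),
      HasRot hik g (pack G i j k g' h') (packD G i j k g g' h') ∧
      Rotd (pack G i j k g' h') ∧ Rotd (packD G i j k g g' h') ∧
      (∀ F Fg Fh, HasRot hik g F Fg → HasRot hik h F Fh →
        β * av G β (fun σ => F σ * pack G i j k g h σ) +
          av G β (fun σ => Fg σ * cur G j k (dd G h) σ) -
          av G β (fun σ => Fh σ * cur G j k (dd G g) σ) -
          av G β (fun σ => F σ * cur G i j (wgt G g h) σ) = 0) ∧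
      (∀ A : ι → ℝ, β ^ 3 * av G β (fun σ => cur G i j A σ * pack G i j k g h σ) +
        form G β i j A (wgt G g h) = 0) ∧
      (∀ B : ι → ℝ, form G β i j (dd G g) B = 0) ∧
      (0 < β → av G β (fun σ => packD G i j k (fun _ => 1) g' h' σ * cur G j k (dd G h) σ) = 0)

/-- The bound on the derivative term. -/
def BoundStmt : Prop :=
  ∀ (n : ℕ) (V ι : Type) [Fintype V] [Fintype ι] [NeZero n] (G : Graph V ι) (β : ℝ), 0 < β →
    ∀ (i j k : Fin n), i ≠ j → i ≠ k → j ≠ k → ∀ (g h g' h' : V → ℝ) (M : ℝ), (∀ x, |g x| ≤ M) →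
      |av G β (fun σ => packD G i j k g g' h' σ * cur G j k (dd G h) σ)| ≤
        (4 / β * nrm (dd G g) + 4 / (β * Real.sqrt β) * M) * nrm (dd G g') * nrm (dd G h') *
          nrm (dd G h) * part G n β

/-- The torus graph. -/
def torus (Lx Ly : ℕ) : Graph (ZMod Lx × ZMod Ly) ((ZMod Lx × ZMod Ly) × Bool) where
  src b := b.1
  tgt b := b.1 + if b.2 then (0, 1) else (1, 0)

/-- The horizontal gauge field. -/
def hor {Lx Ly : ℕ} (b : (ZMod Lx × ZMod Ly) × Bool) : ℝ := if b.2 then 0 else 1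

/-- A tent profile. -/
def tent (R : ℕ) (u : ℤ) : ℝ := max 0 (min 1 ((2 * R - |(u : ℝ)|) / R))

/-- The plateau bump. -/
def chi {Lx Ly : ℕ} (R : ℕ) (z : ZMod Lx × ZMod Ly) : ℝ :=
  tent R z.1.valMinAbs * tent R z.2.valMinAbs

/-- The plateau potential of scale `R` at `y`. -/
def gb {Lx Ly : ℕ} (R : ℕ) (y z : ZMod Lx × ZMod Ly) : ℝ := chi R (z - y)

/-- The ramp potential of scale `R` at `y`. -/
def hb {Lx Ly : ℕ} (R : ℕ) (y z : ZMod Lx × ZMod Ly) : ℝ :=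
  chi R (z - y) * ((z - y).1.valMinAbs : ℝ) / (2 * R)

/-- A potential cut off around `x`. -/
def cut {Lx Ly : ℕ} (r : ℕ) (x : ZMod Lx × ZMod Ly) (f : ZMod Lx × ZMod Ly → ℝ)
    (z : ZMod Lx × ZMod Ly) : ℝ :=
  (f z - f x) * chi (3 * r) (z - x)

/-- The square of radius `3r` at `x`. -/
def sq {Lx Ly : ℕ} (r : ℕ) (x : ZMod Lx × ZMod Ly) : Set (ZMod Lx × ZMod Ly) :=
  {z | (z - x).1.valMinAbs.natAbs ≤ 3 * r ∧ (z - x).2.valMinAbs.natAbs ≤ 3 * r}

/-- The facts about the bumps. -/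
def GeoStmt : Prop :=
  ∀ (Lx Ly : ℕ) [NeZero Lx] [NeZero Ly] (r R : ℕ), 1 ≤ r → r ≤ R → 12 * R ≤ Lx → 12 * R ≤ Ly →
    (∀ x b, (dd (torus Lx Ly) (gb r x) b ≠ 0 ∨ dd (torus Lx Ly) (hb r x) b ≠ 0) →
      (torus Lx Ly).src b ∈ sq r x ∧ (torus Lx Ly).tgt b ∈ sq r x) ∧
    (∀ x, nrm (dd (torus Lx Ly) (gb r x)) ≤ 40 ∧ nrm (dd (torus Lx Ly) (hb r x)) ≤ 40) ∧
    (∀ y z, wgt (torus Lx Ly) (gb R y) (hb R y) (z, true) = 0) ∧
    (∀ y z, wgt (torus Lx Ly) (gb R y) (hb R y) (z, false) =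
      wgt (torus Lx Ly) (gb R 0) (hb R 0) (z - y, false)) ∧
    ((∑ z, wgt (torus Lx Ly) (gb R 0) (hb R 0) (z, false)) ≤ -(R : ℝ)) ∧
    (∀ (x y : ZMod Lx × ZMod Ly) (f : ZMod Lx × ZMod Ly → ℝ), f = gb R y ∨ f = hb R y →
      (∀ z, |cut r x f z| ≤ 24 * r / R) ∧ nrm (dd (torus Lx Ly) (cut r x f)) ≤ 500 * r / R ∧
        ∀ z ∈ sq r x, cut r x f z = f z - f x) ∧
    ∀ x : ZMod Lx × ZMod Ly, ∃ Y : Finset (ZMod Lx × ZMod Ly),
      (Y.card : ℝ) ≤ 300 * (R : ℝ) ^ 2 ∧ ∀ y ∉ Y, cut r x (gb R y) = 0 ∧ cut r x (hb R y) = 0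

/-- Translation invariance of the form. -/
def TransStmt : Prop :=
  ∀ (n : ℕ) (Lx Ly : ℕ) [NeZero n] [NeZero Lx] [NeZero Ly] (β : ℝ) (i j : Fin n)
    (w : (ZMod Lx × ZMod Ly) × Bool → ℝ), (∀ z, w (z, true) = 0) →
      ((Lx : ℝ) * Ly) * form (torus Lx Ly) β i j hor w =
        (∑ z, w (z, false)) * form (torus Lx Ly) β i j hor hor

/-- The seam twist is a uniform gauge field. -/
def SeamStmt : Prop :=
  ∀ (n : ℕ) (Lx Ly : ℕ) [NeZero n] [NeZero Lx] [NeZero Ly] (β : ℝ) (i j : Fin n), i ≠ j →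
    ∀ θ : ℝ, twistZ n β Lx Ly i j θ = zA (torus Lx Ly) β i j hor (-θ / Lx)

/-- The bound on the helicity modulus. -/
def StiffStmt : Prop :=
  ∃ C : ℝ, 0 ≤ C ∧ ∀ (n : ℕ) [NeZero n], 3 ≤ n → ∀ β : ℝ, 0 ≤ β →
    ∀ (Lx Ly : ℕ) [NeZero Lx] [NeZero Ly], 2 ≤ Lx → 2 ≤ Ly → ∀ i j : Fin n, i ≠ j →
      form (torus Lx Ly) β i j hor hor ≤
        C * (β + β ^ 2) * ((Lx : ℝ) * Ly) / Real.log (min (Lx : ℝ) Ly) *
          part (torus Lx Ly) n β

end Vale.Agent.P163.Helicity
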