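import Vale.Agent.P163.Helicity.Spec

/-!
The distance to zero on the cycle, and tents.
-/

noncomputable section

namespace Vale.Agent.P163.Helicity.Geo

/-- The distance to zero on the cycle. -/
def cd {L : ℕ} (a : ZMod L) : ℝ := |(a.valMinAbs : ℝ)|

variable {L : ℕ} [NeZero L]

omit [NeZero L] in
lemma cd_nonneg (a : ZMod L) : 0 ≤ cd a := abs_nonneg _

omit [NeZero L] in
lemma cd_natAbs (a : ZMod L) : cd a = (a.valMinAbs.natAbs : ℝ) := by
  rw [cd, ← Int.cast_abs, ← Int.natCast_natAbs, Int.cast_natCast]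

omit [NeZero L] in
lemma cd_le_iff (a : ZMod L) (k : ℕ) : a.valMinAbs.natAbs ≤ k ↔ cd a ≤ (k : ℝ) := by
  rw [cd_natAbs, Nat.cast_le]

omit [NeZero L] in
lemma cd_zero : cd (0 : ZMod L) = 0 := by simp [cd]

omit [NeZero L] in
lemma cd_add_le (a b : ZMod L) : cd (a + b) ≤ cd a + cd b := by
  simp only [cd_natAbs]
  exact_mod_cast (ZMod.natAbs_valMinAbs_add_le a b).trans (Int.natAbs_add_le _ _)

omit [NeZero L] in
lemma cd_neg (a : ZMod L) : cd (-a) = cd a := by
  rw [cd_natAbs, cd_natAbs, ZMod.natAbs_valMinAbs_neg]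

omit [NeZero L] in
lemma cd_sub_comm (a b : ZMod L) : cd (a - b) = cd (b - a) := by rw [← cd_neg, neg_sub]

omit [NeZero L] in
lemma abs_cd_sub (a b : ZMod L) : |cd a - cd b| ≤ cd (a - b) := by
  have h1 := cd_add_le (a - b) b
  have h2 := cd_add_le (b - a) a
  simp only [sub_add_cancel] at h1 h2
  rw [cd_sub_comm b a] at h2
  exact abs_le.2 ⟨by linarith, by linarith⟩

lemma vma_cast {u : ℤ} (h : 2 * |u| < (L : ℤ)) : ((u : ZMod L)).valMinAbs = u := by
  have h1 := le_abs_self u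
  have h2 := neg_abs_le u
  exact (ZMod.valMinAbs_spec _ _).2 ⟨rfl, ⟨by omega, by omega⟩⟩

lemma vma_succ {a : ZMod L} (h : 2 * (cd a + 1) < L) :
    ((a + 1).valMinAbs : ℝ) = a.valMinAbs + 1 := by
  have hz : 2 * (|a.valMinAbs| + 1) < (L : ℤ) := by
    have : ((2 * (|a.valMinAbs| + 1) : ℤ) : ℝ) < ((L : ℤ) : ℝ) := by
      push_cast; simpa [cd] using h
    exact_mod_cast this
  have h1 : |a.valMinAbs + 1| ≤ |a.valMinAbs| + 1 := (abs_add_le _ _).trans (by simp)
  have h2 := vma_cast (L := L) (u := a.valMinAbs + 1) (by omega)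
  rw [Int.cast_add, Int.cast_one, ZMod.coe_valMinAbs] at h2
  rw [h2]; push_cast; ring

lemma cd_one (h : 3 ≤ L) : cd (1 : ZMod L) = 1 := by
  have := vma_cast (L := L) (u := 1) (by simp; omega)
  simp only [Int.cast_one] at this
  simp [cd, this]

omit [NeZero L] in
lemma line_le {g : ZMod L → ℝ} {K : ℝ} (h : ∀ a, |g (a + 1) - g a| ≤ K) (a : ZMod L) (u : ℤ) :
    |g (a + u) - g a| ≤ K * |(u : ℝ)| := by
  have key : ∀ (m : ℕ) (a : ZMod L), |g (a + m) - g a| ≤ K * m := by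
    intro m
    induction m with
    | zero => intro a; simp
    | succ m ih =>
      intro a
      have h1 := ih a
      have h2 := h (a + m)
      have h3 := abs_sub_le (g (a + m + 1)) (g (a + m)) (g a)
      push_cast
      rw [← add_assoc, mul_add, mul_one]
      linarith
  rcases Int.eq_nat_or_neg u with ⟨m, rfl | rfl⟩
  · simpa using key m a
  · have := key m (a - m)
    simp only [sub_add_cancel] at this
    rw [abs_sub_comm] at this
    simpa [sub_eq_add_neg] using this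

/-! Tents. -/

omit [NeZero L]

lemma tent_nonneg (R : ℕ) (u : ℤ) : 0 ≤ tent R u := le_max_left _ _

lemma tent_le_one (R : ℕ) (u : ℤ) : tent R u ≤ 1 := max_le zero_le_one (min_le_left _ _)

lemma tent_eq_one {R : ℕ} (hR : 1 ≤ R) {u : ℤ} (h : |(u : ℝ)| ≤ R) : tent R u = 1 := by
  have hR' : (0 : ℝ) < R := by exact_mod_cast hR
  have : (1 : ℝ) ≤ (2 * R - |(u : ℝ)|) / R := by rw [le_div_iff₀ hR']; linarith
  simp [tent, min_eq_left this]

lemma tent_eq_zero {R : ℕ} {u : ℤ} (h : 2 * (R : ℝ) ≤ |(u : ℝ)|) : tent R u = 0 := by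
  have : (2 * R - |(u : ℝ)|) / R ≤ 0 :=
    div_nonpos_of_nonpos_of_nonneg (by linarith) (Nat.cast_nonneg R)
  exact max_eq_left ((min_le_right _ _).trans this)

lemma tent_lip (R : ℕ) (u v : ℤ) :
    |tent R u - tent R v| ≤ abs (|(u : ℝ)| - |(v : ℝ)|) / R := by
  unfold tent
  set p := (2 * R - |(u : ℝ)|) / (R : ℝ) with hp
  set q := (2 * R - |(v : ℝ)|) / (R : ℝ) with hq
  have e : |p - q| = abs (|(u : ℝ)| - |(v : ℝ)|) / R := by
    rw [hp, hq, ← sub_div, abs_div, Nat.abs_cast, abs_sub_comm]; ring_nf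
  rw [← e]
  calc |max 0 (min 1 p) - max 0 (min 1 q)| ≤ max |(0 : ℝ) - 0| |min 1 p - min 1 q| :=
        abs_max_sub_max_le_max _ _ _ _
    _ ≤ |p - q| := by
        refine max_le (by simp) ?_
        exact (abs_min_sub_min_le_max _ _ _ _).trans (max_le (by simp) le_rfl)

variable {Lx Ly : ℕ}

lemma chi_nonneg (R : ℕ) (z : ZMod Lx × ZMod Ly) : 0 ≤ chi R z :=
  mul_nonneg (tent_nonneg _ _) (tent_nonneg _ _)

lemma chi_le_one (R : ℕ) (z : ZMod Lx × ZMod Ly) : chi R z ≤ 1 :=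
  mul_le_one₀ (tent_le_one _ _) (tent_nonneg _ _) (tent_le_one _ _)

lemma chi_lt {R : ℕ} {z : ZMod Lx × ZMod Ly} (h : chi R z ≠ 0) :
    cd z.1 < 2 * R ∧ cd z.2 < 2 * R := by
  constructor <;> by_contra hc <;> exact h (by
    simp [chi, tent_eq_zero (le_of_not_gt hc)])

lemma chi_eq_one {R : ℕ} (hR : 1 ≤ R) {z : ZMod Lx × ZMod Ly} (h1 : cd z.1 ≤ R)
    (h2 : cd z.2 ≤ R) : chi R z = 1 := by
  simp [chi, tent_eq_one hR h1, tent_eq_one hR h2]

lemma chi_lip [NeZero Lx] [NeZero Ly] (R : ℕ) (z z' : ZMod Lx × ZMod Ly) :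
    |chi R z' - chi R z| ≤ (cd (z' - z).1 + cd (z' - z).2) / R := by
  have a1 := tent_lip R z'.1.valMinAbs z.1.valMinAbs
  have a2 := tent_lip R z'.2.valMinAbs z.2.valMinAbs
  have b1 : |tent R z'.1.valMinAbs - tent R z.1.valMinAbs| ≤ cd (z' - z).1 / R :=
    a1.trans (div_le_div_of_nonneg_right (abs_cd_sub z'.1 z.1) (Nat.cast_nonneg R))
  have b2 : |tent R z'.2.valMinAbs - tent R z.2.valMinAbs| ≤ cd (z' - z).2 / R :=
    a2.trans (div_le_div_of_nonneg_right (abs_cd_sub z'.2 z.2) (Nat.cast_nonneg R))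
  have c1 := tent_nonneg R z'.2.valMinAbs
  have c2 := tent_le_one R z'.2.valMinAbs
  have c3 := tent_nonneg R z.1.valMinAbs
  have c4 := tent_le_one R z.1.valMinAbs
  rw [add_div]
  unfold chi
  set p := tent R z'.1.valMinAbs
  set q := tent R z'.2.valMinAbs
  set p' := tent R z.1.valMinAbs
  set q' := tent R z.2.valMinAbs
  calc |p * q - p' * q'| = |(p - p') * q + p' * (q - q')| := by ring_nf
    _ ≤ |p - p'| * 1 + 1 * |q - q'| := by
        refine (abs_add_le _ _).trans (add_le_add ?_ ?_)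
        · rw [abs_mul, abs_of_nonneg c1]; exact mul_le_mul_of_nonneg_left c2 (abs_nonneg _)
        · rw [abs_mul, abs_of_nonneg c3]; exact mul_le_mul_of_nonneg_right c4 (abs_nonneg _)
    _ ≤ _ := by linarith

end Vale.Agent.P163.Helicity.Geo
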