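import Vale.Agent.P163.Helicity.Scales
import Vale.Agent.P163.Helicity.Seam

/-!
The twist free energy of the `O(n)` model vanishes for `n ≥ 3`.
-/

noncomputable section

namespace Vale.Agent.P163.Helicity

open MeasureTheory Metric
open scoped RealInnerProductSpace

theorem twist_insensitive : ∃ C : ℝ, 0 < C ∧ ∀ (n : ℕ), 3 ≤ n → ∀ β : ℝ, 0 ≤ β →
    ∀ (Lx Ly : ℕ) [NeZero Lx] [NeZero Ly], 2 ≤ Lx → 2 ≤ Ly → ∀ i j : Fin n, i ≠ j → ∀ θ : ℝ,
      0 < twistZ n β Lx Ly i j θ ∧ twistZ n β Lx Ly i j θ ≤ twistZ n β Lx Ly i j 0 ∧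
        1 - twistZ n β Lx Ly i j θ / twistZ n β Lx Ly i j 0 ≤
          C * (β + β ^ 2) * θ ^ 2 * ((Ly : ℝ) / Lx) / Real.log (min (Lx : ℝ) Ly) := by
  obtain ⟨C, hC, hst⟩ := stiff_stmt
  refine ⟨C / 2 + 1, by linarith, fun n hn β hβ Lx Ly _ _ hx hy i j hij θ => ?_⟩
  haveI : NeZero n := ⟨by omega⟩
  set G := torus Lx Ly with hG
  have hd := fun t => dia_stmt pos_stmt n _ _ G β hβ i j hij hor t
  have hpos : ∀ t, 0 < zA G β i j hor t := fun t => by
    unfold zA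
    exact integral_exp_pos (integ (by have := continuous_enT i j G hor t; fun_prop))
  have hse := seam_stmt n Lx Ly β i j hij
  have h0 : twistZ n β Lx Ly i j 0 = part G n β := by
    rw [hse 0, neg_zero, zero_div, ← hG]; exact (hd 0).2.1
  obtain ⟨-, -, hle, hgap⟩ := hd (-θ / Lx)
  have hθ := hse θ
  rw [← hG] at hθ
  have hp := hpos (-θ / Lx)
  rw [← hθ, ← h0] at hle hgap
  rw [← hθ] at hp
  refine ⟨hp, hle, ?_⟩
  have hZ : 0 < twistZ n β Lx Ly i j 0 := hp.trans_le hle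
  rw [one_sub_div hZ.ne', div_le_iff₀ hZ]
  have hS := hst n hn β hβ Lx Ly hx hy i j hij
  rw [← hG, ← h0] at hS
  have hLx : (0 : ℝ) < Lx := by exact_mod_cast (show 0 < Lx by omega)
  have hm2 : (2 : ℝ) ≤ min (Lx : ℝ) Ly := le_min (by exact_mod_cast hx) (by exact_mod_cast hy)
  have hlog : 0 < Real.log (min (Lx : ℝ) Ly) := Real.log_pos (by linarith)
  refine hgap.trans ((mul_le_mul_of_nonneg_left hS (by positivity)).trans ?_)
  calc (-θ / (Lx : ℝ)) ^ 2 / 2 * (C * (β + β ^ 2) * ((Lx : ℝ) * Ly) /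
        Real.log (min (Lx : ℝ) Ly) * twistZ n β Lx Ly i j 0)
      = C / 2 * ((β + β ^ 2) * θ ^ 2 * ((Ly : ℝ) / Lx) / Real.log (min (Lx : ℝ) Ly) *
          twistZ n β Lx Ly i j 0) := by
        field_simp
    _ ≤ (C / 2 + 1) * ((β + β ^ 2) * θ ^ 2 * ((Ly : ℝ) / Lx) / Real.log (min (Lx : ℝ) Ly) *
          twistZ n β Lx Ly i j 0) := by
        gcongr
        linarith
    _ = _ := by ring

end Vale.Agent.P163.Helicity
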